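import Vale.Agent.P011.H518.R8.Iso
import Vale.Agent.P011.H305.Three
import Vale.Agent.P011.H305.SetF
import Vale.Agent.P011.H268.GalSplit

/-!
# Function fields: the solvable step for algebras with zero divisors

From the special unitary groups of anisotropic planes over division algebras: if they have no
normal subgroup of prime index, the solvable step holds for every algebra with zero divisors.
-/

open Module Matrix TensorProduct

set_option linter.unusedSectionVars false

namespace Vale.Agent.P011.H518.R8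

open Vale.Agent.P011.H738 Vale.Agent.P011.H271 Vale.Agent.P011.H305 Vale.Agent.P011.H698
open Vale.Agent.P011S

/-- **The input**: over a global function field of characteristic not two the special unitary
groups of the anisotropic hermitian planes over division algebras of degree at least two have no
normal subgroup of prime index. -/
def TopTwo : Prop :=
  ∀ (k K D Ω : Type) [Field k] [Field K] [StarRing K] [DivisionRing D] [StarRing D]
    [Algebra k K] [Algebra k D] [Algebra K D] [IsScalarTower k K D] [StarModule K D]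
    [Field Ω] [Algebra K Ω] (_ : IsGlobalFunctionField k) (d : kˣ) (s : K)
    (_ : SetF k K D d s) (n : ℕ) (_ : 2 ≤ n) (_ : finrank K D = n ^ 2)
    (f : D →ₐ[K] Matrix (Fin n) (Fin n) Ω) (H : Matrix (Fin 2) (Fin 2) D)
    (_ : IsAnisotropicForm H) (Q : Subgroup (SU f H)) (_ : Q.Normal), ¬ Q.index.Prime

section

variable {k K A Ω : Type} [Field k] [Field K] [StarRing K] [Ring A] [StarRing A]
  [Algebra k K] [Algebra k A] [Algebra K A] [IsScalarTower k K A] [StarModule K A] {n N : ℕ}
  [Field Ω] [Algebra K Ω]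

/-- **No place is of division type.** -/
theorem adiv_empty (hA : Anis k K A n) (hn : n ≠ 0) (hdiv : ∃ x : A, x ≠ 0 ∧ ¬ IsUnit x)
    (v : Place k) : v ∉ Adiv k K A := by
  rintro ⟨φ, hφ⟩
  let := (φ : K →+* v.comp).toAlgebra
  have hKA : FiniteDimensional K A := FiniteDimensional.of_finrank_pos (by
    rw [hA.finrank_eq]; positivity)
  obtain ⟨x, hx, hxu⟩ := hdiv
  -- a zero divisor
  obtain ⟨y, hy0, hy⟩ : ∃ y : A, y ≠ 0 ∧ x * y = 0 := by
    by_contra hcon
    push Not at hcon
    have hinj : Function.Injective (LinearMap.mulLeft K x) := by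
      rw [injective_iff_map_eq_zero]
      intro y hy
      by_contra hy0
      exact hcon y hy0 hy
    have hsurj := LinearMap.injective_iff_surjective.mp hinj
    obtain ⟨z, hz⟩ := hsurj 1
    have hz' : x * z = 1 := hz
    have hzx : z * x = 1 := by
      apply hinj
      change x * (z * x) = x * 1
      rw [← mul_assoc, hz', one_mul, mul_one]
    exact hxu ⟨⟨x, z, hz', hzx⟩, rfl⟩
  have hinj : Function.Injective (Algebra.TensorProduct.includeRight : A →ₐ[K] v.comp ⊗[K] A) :=
    Algebra.TensorProduct.includeRight_injective (algebraMap K v.comp).injective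
  have h1 : (1 : v.comp) ⊗ₜ[K] x ≠ 0 := fun h => hx (hinj (by
    rw [map_zero]; exact h))
  have h2 : (1 : v.comp) ⊗ₜ[K] y ≠ 0 := fun h => hy0 (hinj (by
    rw [map_zero]; exact h))
  have h3 : ((1 : v.comp) ⊗ₜ[K] x) * ((1 : v.comp) ⊗ₜ[K] y) = 0 := by
    rw [Algebra.TensorProduct.tmul_mul_tmul, hy, TensorProduct.tmul_zero]
  have h4 := hφ _ h1
  exact h2 ((h4.mul_right_eq_zero).mp h3)

/-- **The solvable step for algebras with zero divisors.** -/
theorem solvAtF_of_top (h : TopTwo) (hk : IsGlobalFunctionField k) (hA : Anis k K A n)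
    (hn : 3 ≤ n) (h2 : (2 : k) ≠ 0) (hdiv : ∃ x : A, x ≠ 0 ∧ ¬ IsUnit x)
    (f : A →ₐ[K] Matrix (Fin n) (Fin n) Ω) (B : Basis (Fin N) k A) : SolvAtF k K f B := by
  intro Q H hQ hH hQH hi hnear hp hcomm hV
  have hgff := gff_of_isGlobal hk
  have hn0 : n ≠ 0 := by omega
  have hKA : FiniteDimensional K A := FiniteDimensional.of_finrank_pos (by
    rw [hA.finrank_eq]; positivity)
  have := hA.central
  have := hA.simple
  -- the open subgroup is the whole group
  have hT : H = ⊤ := by
    obtain ⟨T, hT, ε, -, hε⟩ := hnear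
    rw [eq_top_iff]
    exact fun g _ => hε g fun v hv => absurd (hT v hv) (adiv_empty hA hn0 hdiv v)
  rw [hT, Subgroup.relIndex_top_right] at hp
  -- the plane
  obtain ⟨P⟩ := exists_pe hA hn0 hdiv
  obtain ⟨d, hnd, hd⟩ := P.exists_deg hA.finrank_eq
  have hd2 : 2 ≤ d := by omega
  have hA' := P.anis hA hd
  obtain ⟨a, s, hS⟩ := exists_setF (D := P.Cr) hA' (by omega) h2
  have hcen := hS.cen
  have hfin := hS.fin
  obtain ⟨M, _, _, _, _, ⟨f'⟩⟩ := H268.exists_galois_split' (K := K) (A := P.Cr) hd
  let Φ := P.iso f f' (by omega) hA.finrank_eq hnd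
  refine h k K P.Cr M hk a s hS d hd2 hd f' P.HH (P.isAnisotropic hA.anisotropic)
    (Q.map Φ.toMonoidHom) (hQ.map _ Φ.surjective) ?_
  rw [Subgroup.index_map_of_bijective]
  · exact hp
  · exact Φ.bijective

/-- **The conjecture for algebras with zero divisors.** -/
theorem conj_of_top (h : TopTwo) (hk : IsGlobalFunctionField k) (hA : Anis k K A n)
    (hn : 3 ≤ n) (h2 : (2 : k) ≠ 0) (hdiv : ∃ x : A, x ≠ 0 ∧ ¬ IsUnit x)
    (f : A →ₐ[K] Matrix (Fin n) (Fin n) Ω) :
    ∃ δ : H732F.GK f →* H732F.HA A n (H732F.Adiv k K A), H732F.IsDiagonal δ ∧ DenseRange δ ∧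
      ∀ M : Subgroup (H732F.GK f), M.Normal → M.index ≠ 0 → H732F.IsOpenPreimage δ M := by
  have hKf : FiniteDimensional k K := (H519.quad hA.fixed hA.star_ne).1
  have hAf : FiniteDimensional K A := FiniteDimensional.of_finrank_pos (by
    rw [hA.finrank_eq]; positivity)
  have hAk : FiniteDimensional k A := Module.Finite.trans K A
  exact conj_of_solvF hk hA hn f (Module.finBasis k A)
    (solvAtF_of_top h hk hA hn h2 hdiv f _)

end

end Vale.Agent.P011.H518.R8
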