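import Vale.Agent.P011.H518.R8.Diag

/-!
# The algebra of two by two matrices with the adjoint involution of a diagonal form
-/

open Module Matrix

set_option linter.unusedSectionVars false

namespace Vale.Agent.P011.H518.R8

open Vale.Agent.P011.H738 Vale.Agent.P011.H305
open Vale.Agent.P011S

theorem repr_matrix {R M : Type*} [Semiring R] [AddCommMonoid M] [Module R M] {ι : Type*}
    (B : Basis ι R M) (X : Matrix (Fin 2) (Fin 2) M) (i j : Fin 2) (l : ι) :
    (B.matrix (Fin 2) (Fin 2)).repr X (i, j, l) = B.repr (X i j) l := by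
  have h1 := Pi.basis_repr (fun _ : Fin 2 => Pi.basis fun _ : Fin 2 => B) (fun a b => X a b)
    ⟨i, ⟨j, l⟩⟩
  have h2 := Pi.basis_repr (fun _ : Fin 2 => B) (fun b => X i b) ⟨j, l⟩
  rw [Basis.matrix, Basis.map_repr, LinearEquiv.trans_apply, Basis.repr_reindex_apply]
  exact h1.trans h2

/-- The coefficient of a diagonal form `⟨1, g⟩`. -/
structure Gs (D : Type) [DivisionRing D] [StarRing D] where
  g : D
  sg : star g = g
  g0 : g ≠ 0

variable {D : Type} [DivisionRing D] [StarRing D] (G : Gs D)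

namespace Gs

/-- The algebra of the matrices, with the adjoint involution. -/
def M (_ : Gs D) : Type := Matrix (Fin 2) (Fin 2) D

noncomputable instance instRingM : Ring G.M := inferInstanceAs (Ring (Matrix (Fin 2) (Fin 2) D))

/-- The matrix underlying an element. -/
noncomputable def mat : G.M ≃+* Matrix (Fin 2) (Fin 2) D := RingEquiv.refl _

/-- The form. -/
noncomputable def H : Matrix (Fin 2) (Fin 2) D := Matrix.diagonal ![1, G.g]

/-- Its inverse. -/
noncomputable def Hi : Matrix (Fin 2) (Fin 2) D := Matrix.diagonal ![1, G.g⁻¹]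

theorem H_Hi : G.H * G.Hi = 1 := by
  rw [H, Hi, Matrix.diagonal_mul_diagonal, ← Matrix.diagonal_one]
  congr 1
  ext i
  fin_cases i
  · simp
  · simp [G.g0]

theorem Hi_H : G.Hi * G.H = 1 := by
  rw [H, Hi, Matrix.diagonal_mul_diagonal, ← Matrix.diagonal_one]
  congr 1
  ext i
  fin_cases i
  · simp
  · simp [G.g0]

theorem H_star : G.Hᴴ = G.H := by
  rw [H, Matrix.diagonal_conjTranspose]
  congr 1
  ext i
  fin_cases i
  · simp
  · simp [G.sg]

theorem Hi_star : G.Hiᴴ = G.Hi := by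
  rw [Hi, Matrix.diagonal_conjTranspose]
  congr 1
  ext i
  fin_cases i
  · simp
  · simp [G.sg, star_inv₀]

noncomputable instance instStarM : StarRing G.M where
  star X := G.mat.symm (G.Hi * (G.mat X)ᴴ * G.H)
  star_involutive X := by
    apply G.mat.injective
    change G.Hi * (G.Hi * (G.mat X)ᴴ * G.H)ᴴ * G.H = G.mat X
    rw [Matrix.conjTranspose_mul, Matrix.conjTranspose_mul, Matrix.conjTranspose_conjTranspose,
      G.H_star, G.Hi_star]
    calc G.Hi * (G.H * (G.mat X * G.Hi)) * G.H = (G.Hi * G.H) * G.mat X * (G.Hi * G.H) := by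
          simp only [Matrix.mul_assoc]
      _ = G.mat X := by rw [G.Hi_H, Matrix.one_mul, Matrix.mul_one]
  star_mul X Y := by
    apply G.mat.injective
    change G.Hi * (G.mat X * G.mat Y)ᴴ * G.H = (G.Hi * (G.mat Y)ᴴ * G.H) * (G.Hi * (G.mat X)ᴴ * G.H)
    rw [Matrix.conjTranspose_mul]
    calc G.Hi * ((G.mat Y)ᴴ * (G.mat X)ᴴ) * G.H = G.Hi * (G.mat Y)ᴴ * 1 * (G.mat X)ᴴ * G.H := by
          simp only [Matrix.mul_assoc, Matrix.one_mul]
      _ = G.Hi * (G.mat Y)ᴴ * (G.H * G.Hi) * (G.mat X)ᴴ * G.H := by rw [G.H_Hi]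
      _ = _ := by simp only [Matrix.mul_assoc]
  star_add X Y := by
    apply G.mat.injective
    change G.Hi * (G.mat X + G.mat Y)ᴴ * G.H = G.Hi * (G.mat X)ᴴ * G.H + G.Hi * (G.mat Y)ᴴ * G.H
    rw [Matrix.conjTranspose_add, Matrix.mul_add, Matrix.add_mul]

theorem mat_star (X : G.M) : G.mat (star X) = G.Hi * (G.mat X)ᴴ * G.H := rfl

theorem star_mul_eq (X Y : G.M) : (G.mat X)ᴴ * G.H * G.mat Y = G.H * G.mat (star X * Y) := by
  rw [map_mul, mat_star]
  calc (G.mat X)ᴴ * G.H * G.mat Y = 1 * (G.mat X)ᴴ * G.H * G.mat Y := by rw [Matrix.one_mul]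
    _ = (G.H * G.Hi) * (G.mat X)ᴴ * G.H * G.mat Y := by rw [G.H_Hi]
    _ = _ := by simp only [Matrix.mul_assoc]

theorem star_mul_iff (X Y : G.M) : (G.mat X)ᴴ * G.H * G.mat Y = G.H ↔ star X * Y = 1 := by
  rw [star_mul_eq]
  constructor
  · intro h
    apply G.mat.injective
    have h1 : G.Hi * (G.H * G.mat (star X * Y)) = G.Hi * G.H := by rw [h]
    rwa [← Matrix.mul_assoc, G.Hi_H, Matrix.one_mul, ← map_one G.mat] at h1
  · intro h
    rw [h, map_one, Matrix.mul_one]

section alg

variable {k K : Type} [Field k] [Field K] [StarRing K] [Algebra k K] [Algebra k D] [Algebra K D]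
  [IsScalarTower k K D] {d : kˣ} {s : K} {n : ℕ}

noncomputable instance instAlgM {R : Type} [CommRing R] [Algebra R D] : Algebra R G.M :=
  inferInstanceAs (Algebra R (Matrix (Fin 2) (Fin 2) D))

theorem mat_smul {R : Type} [CommRing R] [Algebra R D] (c : R) (X : G.M) :
    G.mat (c • X) = c • G.mat X := rfl

instance instTowerM : IsScalarTower k K G.M :=
  inferInstanceAs (IsScalarTower k K (Matrix (Fin 2) (Fin 2) D))

instance instFinM {R : Type} [Field R] [Algebra R D] [FiniteDimensional R D] :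
    FiniteDimensional R G.M :=
  inferInstanceAs (FiniteDimensional R (Matrix (Fin 2) (Fin 2) D))

instance instSimpleM : IsSimpleRing G.M :=
  inferInstanceAs (IsSimpleRing (Matrix (Fin 2) (Fin 2) D))

instance instStarModuleM [StarModule K D] : StarModule K G.M := ⟨fun c X => by
  apply G.mat.injective
  rw [mat_star, mat_smul, mat_smul, mat_star, Matrix.conjTranspose_smul, Matrix.mul_smul,
    Matrix.smul_mul]⟩

instance instCentralM [Algebra.IsCentral K D] : Algebra.IsCentral K G.M :=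
  inferInstanceAs (Algebra.IsCentral K (Matrix (Fin 2) (Fin 2) D))

theorem finrankM (hd : finrank K D = n ^ 2) : finrank K G.M = (2 * n) ^ 2 := by
  change finrank K (Matrix (Fin 2) (Fin 2) D) = _
  rw [finrank_matrix, Fintype.card_fin, hd]
  ring

theorem anisotropicM (han : Two.An G.g) (X : G.M) (hX : star X * X = 0) : X = 0 := by
  apply G.mat.injective
  have h1 : (G.mat X)ᴴ * G.H * G.mat X = 0 := by
    rw [star_mul_eq, hX, map_zero, Matrix.mul_zero]
  rw [map_zero]
  have key : ∀ j, G.mat X 0 j = 0 ∧ G.mat X 1 j = 0 := by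
    intro j
    have h2 := congrFun (congrFun h1 j) j
    rw [H, Matrix.mul_apply, Fin.sum_univ_two, Matrix.mul_diagonal, Matrix.mul_diagonal,
      Matrix.conjTranspose_apply, Matrix.conjTranspose_apply, Matrix.zero_apply] at h2
    simp only [Matrix.cons_val_zero, Matrix.cons_val_one, mul_one] at h2
    have h3 := han (star (G.mat X 0 j), star (G.mat X 1 j)) (by
      simp only [Two.hh, star_star]
      exact h2)
    exact ⟨star_eq_zero.mp (congrArg Prod.fst h3), star_eq_zero.mp (congrArg Prod.snd h3)⟩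
  ext i j
  fin_cases i
  · exact (key j).1
  · exact (key j).2

theorem anisM [StarModule K D] (hS : SetF k K D d s) (hdeg : finrank K D = n ^ 2)
    (han : Two.An G.g) : Anis k K G.M (2 * n) :=
  have := hS.cen
  { fixed := hS.fix
    star_ne := ⟨s, hS.star_ne⟩
    central := inferInstance
    simple := inferInstance
    finrank_eq := G.finrankM hdeg
    anisotropic := G.anisotropicM han }

/-- There are zero divisors. -/
theorem not_div : ∃ X : G.M, X ≠ 0 ∧ ¬ IsUnit X := by
  refine ⟨G.mat.symm (Matrix.single 0 0 1), ?_, ?_⟩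
  · intro h
    have h1 := congrArg G.mat h
    rw [RingEquiv.apply_symm_apply, map_zero] at h1
    have h2 := congrFun (congrFun h1 0) 0
    simp at h2
  · intro h
    have h1 := h.map G.mat
    rw [RingEquiv.apply_symm_apply] at h1
    obtain ⟨Y, hY⟩ := h1.exists_right_inv
    have h2 := congrFun (congrFun hY 1) 1
    rw [Matrix.mul_apply, Fin.sum_univ_two] at h2
    simp at h2

variable {N : ℕ}

/-- The basis. -/
noncomputable def bas {R : Type} [Field R] [Algebra R D] (B : Basis (Fin N) R D) :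
    Basis (Fin (2 * (2 * N))) R G.M :=
  ((B.matrix (Fin 2) (Fin 2)).reindex
    ((Equiv.prodCongr (Equiv.refl (Fin 2)) finProdFinEquiv).trans finProdFinEquiv) :
    Basis (Fin (2 * (2 * N))) R (Matrix (Fin 2) (Fin 2) D))

theorem bas_repr {R : Type} [Field R] [Algebra R D] (B : Basis (Fin N) R D) (X : G.M)
    (i j : Fin 2) (l : Fin N) :
    (G.bas B).repr X (finProdFinEquiv (i, finProdFinEquiv (j, l))) = B.repr (G.mat X i j) l := by
  change (((B.matrix (Fin 2) (Fin 2)).reindex
    ((Equiv.prodCongr (Equiv.refl (Fin 2)) finProdFinEquiv).trans finProdFinEquiv)).repr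
      (G.mat X)) _ = _
  rw [Basis.repr_reindex_apply]
  have h1 : (((Equiv.prodCongr (Equiv.refl (Fin 2)) finProdFinEquiv).trans
      finProdFinEquiv).symm (finProdFinEquiv (i, finProdFinEquiv (j, l))) :
      Fin 2 × Fin 2 × Fin N) = (i, j, l) := by
    simp
  rw [h1]
  exact repr_matrix B (G.mat X) i j l

end alg

section spl

variable {K Ω : Type} [Field K] [Algebra K D] [Field Ω] [Algebra K Ω] {n : ℕ}

/-- The splitting. -/
noncomputable def spl (f : D →ₐ[K] Matrix (Fin n) (Fin n) Ω) :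
    G.M →ₐ[K] Matrix (Fin (2 * n)) (Fin (2 * n)) Ω :=
  (Matrix.reindexAlgEquiv K Ω finProdFinEquiv).toAlgHom.comp
    ((Matrix.compAlgEquiv (Fin 2) (Fin n) Ω K).toAlgHom.comp
      (f.mapMatrix : Matrix (Fin 2) (Fin 2) D →ₐ[K] _))

theorem det_spl (f : D →ₐ[K] Matrix (Fin n) (Fin n) Ω) (X : G.M) :
    (G.spl f X).det = redNorm f (Fin 2) (G.mat X) := by
  let g1 : Matrix (Fin 2) (Fin 2) D →ₐ[K] Matrix (Fin 2 × Fin n) (Fin 2 × Fin n) Ω :=
    (Matrix.compAlgEquiv (Fin 2) (Fin n) Ω K).toAlgHom.comp f.mapMatrix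
  have h1 : (g1 (G.mat X)).det = redNorm f (Fin 2) (G.mat X) := rfl
  rw [← h1]
  exact Matrix.det_reindex_self finProdFinEquiv (g1 (G.mat X))

theorem mem_iff (f : D →ₐ[K] Matrix (Fin n) (Fin n) Ω) (X : G.Mˣ) :
    Units.mapEquiv (G.mat : G.M ≃* Matrix (Fin 2) (Fin 2) D) X ∈ SU f G.H ↔
      X ∈ SUA (G.spl f) := by
  have h1 : Units.mapEquiv (G.mat : G.M ≃* Matrix (Fin 2) (Fin 2) D) X ∈ SU f G.H ↔
      (G.mat (X : G.M))ᴴ * G.H * G.mat (X : G.M) = G.H ∧ redNorm f (Fin 2) (G.mat (X : G.M)) = 1 :=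
    Iff.rfl
  have h2 : X ∈ SUA (G.spl f) ↔ (X : G.M) * star (X : G.M) = 1 ∧ (G.spl f (X : G.M)).det = 1 :=
    Iff.rfl
  rw [h1, h2, G.star_mul_iff, G.det_spl]
  refine and_congr_left fun _ => ⟨fun h => ?_, fun h => ?_⟩
  · have h3 : star (X : G.M) = ((X⁻¹ : G.Mˣ) : G.M) := Units.eq_inv_of_mul_eq_one_right h
    rw [h3, Units.mul_inv]
  · have h3 : star (X : G.M) = ((X⁻¹ : G.Mˣ) : G.M) := by
      rw [← Units.mul_right_inj X, h, Units.mul_inv]
    rw [h3, Units.inv_mul]

end spl

end Gs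

end Vale.Agent.P011.H518.R8
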