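import Vale.Agent.P011.H401.Peirce
import Vale.Agent.P011S.Defs2

/-!
# The division algebra `e A e` of an algebra `A` of two by two matrices with involution

`Pe A` : a symmetric idempotent `e` with matrix units `u`, `v`, such that `e A e` is a division
ring. `P.Cr` : the corner `e A e` with its structure of division ring with involution, and of
algebra over the centre. `P.mx` : the isomorphism of `A` with the ring of two by two matrices over
the corner; the involution is the adjoint involution of the diagonal form `⟨1, g⟩`.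
-/

open Module Matrix

set_option linter.unusedSectionVars false

namespace Vale.Agent.P011.H518.R8

/-- The data of a decomposition of `A` as ring of two by two matrices over a division ring. -/
structure Pe (A : Type) [Ring A] [StarRing A] where
  e : A
  u : A
  v : A
  ee : e * e = e
  se : star e = e
  eu : e * u = u
  ue : u * e = 0
  ev : e * v = 0
  ve : v * e = v
  uv : u * v = e
  vu : v * u = 1 - e
  inv : ∀ x, e * x = x → x * e = x → x ≠ 0 → IsUnit (x + (1 - e))
  ne : e ≠ 0

variable {A : Type} [Ring A] [StarRing A]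

namespace Pe

variable (P : Pe A)

theorem mem_e_star {x : A} (h : P.e * x = x ∧ x * P.e = x) :
    P.e * star x = star x ∧ star x * P.e = star x := by
  constructor
  · have := congrArg star h.2
    rwa [star_mul, P.se] at this
  · have := congrArg star h.1
    rwa [star_mul, P.se] at this

/-- The corner as a non-unital subring. -/
def ns : NonUnitalSubring A where
  carrier := {x | P.e * x = x ∧ x * P.e = x}
  add_mem' := by
    rintro x y ⟨h1, h2⟩ ⟨h3, h4⟩
    exact ⟨by rw [mul_add, h1, h3], by rw [add_mul, h2, h4]⟩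
  zero_mem' := ⟨mul_zero _, zero_mul _⟩
  mul_mem' := by
    rintro x y ⟨h1, h2⟩ ⟨h3, h4⟩
    exact ⟨by rw [← mul_assoc, h1], by rw [mul_assoc, h4]⟩
  neg_mem' := by
    rintro x ⟨h1, h2⟩
    exact ⟨by rw [mul_neg, h1], by rw [neg_mul, h2]⟩

/-- The corner `e A e`. -/
def Cr : Type := P.ns

/-- The element of `A` underlying an element of the corner. -/
def val (x : P.Cr) : A := Subtype.val x

/-- An element of the corner. -/
def cr (x : A) (h : P.e * x = x ∧ x * P.e = x) : P.Cr := ⟨x, h⟩

theorem val_cr (x : A) (h : P.e * x = x ∧ x * P.e = x) : P.val (P.cr x h) = x := rfl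

theorem val_inj {x y : P.Cr} (h : P.val x = P.val y) : x = y := Subtype.ext h

theorem e_val (x : P.Cr) : P.e * P.val x = P.val x := x.2.1

theorem val_e (x : P.Cr) : P.val x * P.e = P.val x := x.2.2

noncomputable instance instNU : NonUnitalRing P.Cr := inferInstanceAs (NonUnitalRing P.ns)

noncomputable instance instRing : Ring P.Cr :=
  { P.instNU with
    one := P.cr P.e ⟨P.ee, P.ee⟩
    one_mul := fun x => P.val_inj (P.e_val x)
    mul_one := fun x => P.val_inj (P.val_e x) }

theorem val_add (x y : P.Cr) : P.val (x + y) = P.val x + P.val y := rfl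
theorem val_sub (x y : P.Cr) : P.val (x - y) = P.val x - P.val y := rfl
theorem val_neg (x : P.Cr) : P.val (-x) = -P.val x := rfl
theorem val_mul (x y : P.Cr) : P.val (x * y) = P.val x * P.val y := rfl
theorem val_zero : P.val 0 = 0 := rfl
theorem val_one : P.val 1 = P.e := rfl

instance instNontrivial : Nontrivial P.Cr := ⟨1, 0, fun h => P.ne (congrArg P.val h)⟩

theorem isUnit_or (x : P.Cr) : IsUnit x ∨ x = 0 := by
  by_cases hx : x = 0
  · exact Or.inr hx
  left
  have hx' : P.val x ≠ 0 := fun h => hx (P.val_inj h)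
  obtain ⟨y, hy⟩ := P.inv _ (P.e_val x) (P.val_e x) hx'
  have h1 : (P.val x + (1 - P.e)) * ((y⁻¹ : Aˣ) : A) = 1 := by rw [← hy, Units.mul_inv]
  have h2 : ((y⁻¹ : Aˣ) : A) * (P.val x + (1 - P.e)) = 1 := by rw [← hy, Units.inv_mul]
  have h3 : P.e * (P.val x + (1 - P.e)) = P.val x := by
    rw [mul_add, P.e_val, mul_sub, mul_one, P.ee, sub_self, add_zero]
  have h4 : (P.val x + (1 - P.e)) * P.e = P.val x := by
    rw [add_mul, P.val_e, sub_mul, one_mul, P.ee, sub_self, add_zero]
  have hz : P.e * (P.e * ((y⁻¹ : Aˣ) : A) * P.e) = P.e * ((y⁻¹ : Aˣ) : A) * P.e ∧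
      (P.e * ((y⁻¹ : Aˣ) : A) * P.e) * P.e = P.e * ((y⁻¹ : Aˣ) : A) * P.e := by
    constructor
    · rw [← mul_assoc, ← mul_assoc, P.ee]
    · rw [mul_assoc, P.ee]
  refine ⟨⟨x, P.cr _ hz, P.val_inj ?_, P.val_inj ?_⟩, rfl⟩
  · rw [P.val_mul, P.val_cr, P.val_one, ← mul_assoc, ← mul_assoc, P.val_e]
    have h5 : P.val x * ((y⁻¹ : Aˣ) : A) = P.e := by
      rw [← h3, mul_assoc, h1, mul_one]
    rw [h5, P.ee]
  · rw [P.val_mul, P.val_cr, P.val_one, mul_assoc, P.e_val]
    have h5 : ((y⁻¹ : Aˣ) : A) * P.val x = P.e := by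
      rw [← h4, ← mul_assoc, h2, one_mul]
    rw [mul_assoc, h5, P.ee]

noncomputable instance instDiv : DivisionRing P.Cr := DivisionRing.ofIsUnitOrEqZero P.isUnit_or

noncomputable instance instStar : StarRing P.Cr where
  star x := P.cr (star (P.val x)) (P.mem_e_star x.2)
  star_involutive x := P.val_inj (star_star (P.val x))
  star_mul x y := P.val_inj (star_mul (P.val x) (P.val y))
  star_add x y := P.val_inj (star_add (P.val x) (P.val y))

theorem val_star (x : P.Cr) : P.val (star x) = star (P.val x) := rfl

section alg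

variable {K : Type} [Field K] [Algebra K A]

theorem mem_smul (c : K) {x : A} (h : P.e * x = x ∧ x * P.e = x) :
    P.e * (c • x) = c • x ∧ (c • x) * P.e = c • x := by
  rw [mul_smul_comm, smul_mul_assoc, h.1, h.2]
  exact ⟨rfl, rfl⟩

noncomputable instance instSMul : SMul K P.Cr := ⟨fun c x => P.cr (c • P.val x) (P.mem_smul c x.2)⟩

theorem val_smul (c : K) (x : P.Cr) : P.val (c • x) = c • P.val x := rfl

noncomputable instance instAlg : Algebra K P.Cr where
  algebraMap :=
    { toFun := fun c => c • (1 : P.Cr)
      map_one' := P.val_inj (one_smul K _)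
      map_mul' := fun a b => P.val_inj (by
        rw [P.val_mul, P.val_smul, P.val_smul, P.val_smul, P.val_one, smul_mul_smul_comm, P.ee])
      map_zero' := P.val_inj (zero_smul K _)
      map_add' := fun a b => P.val_inj (add_smul a b _) }
  commutes' c x := P.val_inj (by
    change (c • P.e) * P.val x = P.val x * (c • P.e)
    rw [smul_mul_assoc, mul_smul_comm, P.e_val, P.val_e])
  smul_def' c x := P.val_inj (by
    change c • P.val x = (c • P.e) * P.val x
    rw [smul_mul_assoc, P.e_val])

theorem val_algebraMap (c : K) : P.val (algebraMap K P.Cr c) = c • P.e := rfl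

end alg

end Pe

end Vale.Agent.P011.H518.R8
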