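import Vale.Agent.P011.H518.R8.Adj
import Vale.Agent.P011.H271.CosetF
import Vale.Agent.P011.H961.Model

/-!
# Strong approximation in cosets for algebras without places of division type
-/

open Module Matrix

set_option linter.unusedSectionVars false

namespace Vale.Agent.P011.H518.R8

open Vale.Agent.P011.H738 Vale.Agent.P011.H271 Vale.Agent.P011.H305 Vale.Agent.P011.H698
open Vale.Agent.P011S

variable {k K A Ω : Type} [Field k] [GFF k] [Field K] [StarRing K] [Ring A] [StarRing A]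
  [Algebra k K] [Algebra k A] [Algebra K A] [IsScalarTower k K A] [StarModule K A] {n N : ℕ}
  [Field Ω] [Algebra K Ω]

/-- **Strong approximation in cosets**: every element is congruent modulo a normal subgroup of
finite index to an element close to one at the places of `T'` and integral at the other places,
except `q`. -/
theorem coset_A (hk : IsGlobalFunctionField k) (hA : Anis k K A n) (hn : 3 ≤ n)
    (hdiv : ∃ x : A, x ≠ 0 ∧ ¬ IsUnit x)
    (f : A →ₐ[K] Matrix (Fin n) (Fin n) Ω) (B : Basis (Fin N) k A) (T₀ : Finset (Place k)) :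
    ∃ (q : Place k) (T : Finset (Place k)), T₀ ⊆ T ∧ q ∉ T ∧ Nonempty (K →ₐ[k] q.comp) ∧
      ∀ (Q : Subgroup (SUA f)), Q.Normal → Q.index ≠ 0 → ∀ (x : SUA f) (T' : Finset (Place k)),
        T ⊆ T' → q ∉ T' → ∀ ε : ℝ, 0 < ε → ∃ x' : SUA f, x⁻¹ * x' ∈ Q ∧
          (∀ v ∈ T', Sm B v ε (((x' : Aˣ) : A) - 1)) ∧
          ∀ v, v ∉ T' → v ≠ q → Bd B v 1 ((x' : Aˣ) : A) := by
  classical
  have hn0 : n ≠ 0 := by omega
  obtain ⟨Tm, hTm⟩ := H961.exists_models hk hA hn f B
  obtain ⟨T, hTT, hT⟩ := H698.exists_big B (T₀ ∪ Tm)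
  obtain ⟨q, hq, -, φ, g, hφ, -, -⟩ := H519.exists_split_place hk hA hn0 T 0
  refine ⟨q, T, Finset.subset_union_left.trans hTT, hq, ⟨φ⟩, ?_⟩
  intro Q hQ hi x T' hTT' hqT' ε hε
  obtain ⟨x', h1, h2, h3⟩ := CosetF.coset_strongF hk hA hn f B (Q := Q) (H := ⊤) hi
    (fun V hV => by
      obtain ⟨T1, hT1, ε1, -, h⟩ := hV
      have h4 : V = ⊤ := by
        rw [eq_top_iff]
        exact fun g _ => h g fun v hv => absurd (hT1 v hv) (adiv_empty hA hn0 hdiv v)
      rw [h4, sup_top_eq]) hφ (T := T') (Big.mono hT hTT')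
    (fun v hv _ => hTm v fun h => hv (hTT' (hTT (Finset.mem_union_right _ h))))
    (x := x) (w := 1) (Subgroup.mem_top _) (Subgroup.mem_top _) hε
  refine ⟨x', h1, fun v hv => ?_, h3⟩
  have h4 := h2 v hv (fun h => hqT' (h ▸ hv))
  exact h4

end Vale.Agent.P011.H518.R8
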