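import Vale.Agent.P011.H518.R8.Row
import Vale.Agent.P011.H699.G0

/-!
# Function fields: the conjecture for algebras with zero divisors, from the planes `D × D`
-/

open Module Matrix

set_option linter.unusedSectionVars false

namespace Vale.Agent.P011.H518.R8

open Vale.Agent.P011.H738 Vale.Agent.P011.H271 Vale.Agent.P011.H305 Vale.Agent.P011.H698
open Vale.Agent.P011.Two (hh An Uh e₁ IsDiag)
open Vale.Agent.P011.H699 (G0 mem_G0 nrd2)
open Vale.Agent.P011S

/-- **The input**: over a global function field of characteristic not two the special unitary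
group `G0 f g` of an anisotropic plane `⟨1, g⟩` over a division algebra of degree at least two has
no normal subgroup of prime index. -/
def TopG0 : Prop :=
  ∀ (k K D Ω : Type) [Field k] [Field K] [StarRing K] [DivisionRing D] [StarRing D]
    [Algebra k K] [Algebra k D] [Algebra K D] [IsScalarTower k K D] [StarModule K D]
    [Field Ω] [Algebra K Ω] (_ : IsGlobalFunctionField k) (d : kˣ) (s : K)
    (_ : SetF k K D d s) (n : ℕ) (_ : 2 ≤ n) (_ : finrank K D = n ^ 2)
    (f : D →ₐ[K] Matrix (Fin n) (Fin n) Ω) (g : D) (_ : star g = g) (_ : An g)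
    (Q : Subgroup ((D × D) ≃ₗ[D] (D × D))) (_ : Q ≤ G0 f g)
    (_ : ∀ a ∈ G0 f g, ∀ x ∈ Q, a * x * a⁻¹ ∈ Q), ¬ (Q.relIndex (G0 f g)).Prime

section nrd

variable {K D Ω : Type} [Field K] [DivisionRing D] [Algebra K D] [Field Ω] [Algebra K Ω] {n : ℕ}

theorem nrd2_eq (f : D →ₐ[K] Matrix (Fin n) (Fin n) Ω) (u : (D × D) ≃ₗ[D] (D × D)) :
    nrd2 f u = redNorm f (Fin 2) (m2 u) := (redNorm_two f (m2 u)).symm

theorem nrd2_Th (f : D →ₐ[K] Matrix (Fin n) (Fin n) Ω) (X : (Matrix (Fin 2) (Fin 2) D)ˣ) :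
    nrd2 f (Th X) = 1 ↔ redNorm f (Fin 2) (X : Matrix (Fin 2) (Fin 2) D) = 1 := by
  rw [nrd2_eq, m2_act]
  have h1 : redNorm f (Fin 2) (X : Matrix (Fin 2) (Fin 2) D) *
      redNorm f (Fin 2) ((X⁻¹ : (Matrix (Fin 2) (Fin 2) D)ˣ) : Matrix (Fin 2) (Fin 2) D) = 1 := by
    rw [← map_mul, Units.mul_inv, map_one]
  constructor
  · intro h
    rwa [h, mul_one] at h1
  · intro h
    rwa [h, one_mul] at h1

end nrd

section pe

variable {K A Ω Ω' : Type} [Field K] [Ring A] [StarRing A] [Algebra K A]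
  [Field Ω] [Algebra K Ω] [Field Ω'] [Algebra K Ω'] {n d : ℕ} (P : Pe A)

/-- The homomorphism from the units of `A`. -/
noncomputable def Pe.th : Aˣ →* ((P.Cr × P.Cr) ≃ₗ[P.Cr] (P.Cr × P.Cr)) :=
  (Th (D := P.Cr)).comp (Units.map (P.mx : A →* Matrix (Fin 2) (Fin 2) P.Cr))

theorem Pe.th_injective : Function.Injective P.th := by
  intro a b h
  have h1 := Th_injective h
  exact Units.ext (P.mx.injective (congrArg Units.val h1))

theorem Pe.th_surjective : Function.Surjective P.th := by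
  intro u
  obtain ⟨X, rfl⟩ := Th_surjective u
  exact ⟨(Units.mapEquiv (P.mx : A ≃* Matrix (Fin 2) (Fin 2) P.Cr)).symm X, by
    change Th (Units.mapEquiv (P.mx : A ≃* Matrix (Fin 2) (Fin 2) P.Cr)
      ((Units.mapEquiv (P.mx : A ≃* Matrix (Fin 2) (Fin 2) P.Cr)).symm X)) = Th X
    rw [MulEquiv.apply_symm_apply]⟩

theorem Pe.unitary_iff (a b : A) :
    P.mx a * P.HI * (P.mx b)ᴴ = P.HI ↔ a * star b = 1 := by
  have h1 : P.mx a * P.HI * (P.mx b)ᴴ = P.mx (a * star b) * P.HI := by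
    rw [map_mul, mul_assoc, ← P.mx_star, mul_assoc]
  rw [h1]
  constructor
  · intro h
    apply P.mx.injective
    have h2 : P.mx (a * star b) * P.HI * P.HH = P.HI * P.HH := by rw [h]
    rwa [mul_assoc, P.HI_HH, mul_one, ← map_one P.mx] at h2
  · intro h
    rw [h, map_one, one_mul]

theorem Pe.th_mem [FiniteDimensional K A] [Algebra.IsCentral K A] [IsSimpleRing A]
    (f : A →ₐ[K] Matrix (Fin n) (Fin n) Ω) (f' : P.Cr →ₐ[K] Matrix (Fin d) (Fin d) Ω')
    (hn : 0 < n) (hA : finrank K A = n ^ 2) (hnd : n = 2 * d) (a : Aˣ) :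
    P.th a ∈ G0 f' P.gg ↔ a ∈ SUA f := by
  have h1 : P.th a = Th (Units.map (P.mx : A →* Matrix (Fin 2) (Fin 2) P.Cr) a) := rfl
  have h2 : a ∈ SUA f ↔ (a : A) * star (a : A) = 1 ∧ (f (a : A)).det = 1 := Iff.rfl
  rw [mem_G0, h1, Th_mem_Uh, nrd2_Th, h2, P.det_iff f f' hn hA hnd]
  exact and_congr_left fun _ => P.unitary_iff (a : A) (a : A)

theorem Pe.map_th [FiniteDimensional K A] [Algebra.IsCentral K A] [IsSimpleRing A]
    (f : A →ₐ[K] Matrix (Fin n) (Fin n) Ω) (f' : P.Cr →ₐ[K] Matrix (Fin d) (Fin d) Ω')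
    (hn : 0 < n) (hA : finrank K A = n ^ 2) (hnd : n = 2 * d) :
    (SUA f).map P.th = G0 f' P.gg := by
  ext u
  constructor
  · rintro ⟨a, ha, rfl⟩
    exact (P.th_mem f f' hn hA hnd a).mpr ha
  · intro hu
    obtain ⟨a, rfl⟩ := P.th_surjective u
    exact ⟨a, (P.th_mem f f' hn hA hnd a).mp hu, rfl⟩

end pe

section

variable {k K A Ω : Type} [Field k] [Field K] [StarRing K] [Ring A] [StarRing A]
  [Algebra k K] [Algebra k A] [Algebra K A] [IsScalarTower k K A] [StarModule K A] {n N : ℕ}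
  [Field Ω] [Algebra K Ω]

/-- **The solvable step for algebras with zero divisors.** -/
theorem solvAtF_of_topG0 (h : TopG0) (hk : IsGlobalFunctionField k) (hA : Anis k K A n)
    (hn : 3 ≤ n) (h2 : (2 : k) ≠ 0) (hdiv : ∃ x : A, x ≠ 0 ∧ ¬ IsUnit x)
    (f : A →ₐ[K] Matrix (Fin n) (Fin n) Ω) (B : Basis (Fin N) k A) : SolvAtF k K f B := by
  intro Q H hQ hH hQH hi hnear hp hcomm hV
  have hgff := gff_of_isGlobal hk
  have hn0 : n ≠ 0 := by omega
  have hKA : FiniteDimensional K A := FiniteDimensional.of_finrank_pos (by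
    rw [hA.finrank_eq]; positivity)
  have := hA.central
  have := hA.simple
  have hT : H = ⊤ := by
    obtain ⟨T, hT, ε, -, hε⟩ := hnear
    rw [eq_top_iff]
    exact fun g _ => hε g fun v hv => absurd (hT v hv) (adiv_empty hA hn0 hdiv v)
  rw [hT, Subgroup.relIndex_top_right] at hp
  obtain ⟨P⟩ := exists_pe hA hn0 hdiv
  obtain ⟨d, hnd, hd⟩ := P.exists_deg hA.finrank_eq
  have hd2 : 2 ≤ d := by omega
  have hA' := P.anis hA hd
  obtain ⟨a, s, hS⟩ := exists_setF (D := P.Cr) hA' (by omega) h2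
  have hcen := hS.cen
  have hfin := hS.fin
  obtain ⟨M, _, _, _, _, ⟨f'⟩⟩ := H268.exists_galois_split' (K := K) (A := P.Cr) hd
  have hmap := P.map_th f f' (by omega) hA.finrank_eq hnd
  have hsg : star P.gg = P.gg := P.star_gg
  have han : An P.gg := by
    have h4 := an_of (P.isAnisotropic hA.anisotropic)
    intro x hx
    have h5 := h4 (x.1, x.2 * P.gg) (by
      simp only [hh] at hx ⊢
      rw [← hx, star_mul, hsg]
      have : x.2 * P.gg * P.gg⁻¹ = x.2 := by rw [mul_assoc, mul_inv_cancel₀ P.gg_ne, mul_one]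
      rw [this, mul_assoc])
    have h6 := congrArg Prod.fst h5
    have h7 := congrArg Prod.snd h5
    exact Prod.ext h6 ((mul_eq_zero.mp h7).resolve_right P.gg_ne)
  refine h k K P.Cr M hk a s hS d hd2 hd f' P.gg hsg han
    ((Q.map (SUA f).subtype).map P.th) ?_ ?_ ?_
  · rintro _ ⟨_, ⟨q, -, rfl⟩, rfl⟩
    exact (P.th_mem f f' (by omega) hA.finrank_eq hnd _).mpr q.2
  · rintro u hu _ ⟨_, ⟨q, hq, rfl⟩, rfl⟩
    rw [← hmap] at hu
    obtain ⟨b, hb, rfl⟩ := hu
    refine ⟨_, ⟨⟨b, hb⟩ * q * ⟨b, hb⟩⁻¹, hQ.conj_mem q hq ⟨b, hb⟩, rfl⟩, ?_⟩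
    rw [← map_mul, ← map_inv, ← map_mul]
    rfl
  · rw [← hmap, Subgroup.relIndex_map_map_of_injective _ _ P.th_injective]
    have h8 : (Q.map (SUA f).subtype).relIndex ((⊤ : Subgroup (SUA f)).map (SUA f).subtype) =
        Q.relIndex ⊤ := Subgroup.relIndex_map_map_of_injective _ _ (SUA f).subtype_injective
    rw [← MonoidHom.range_eq_map, Subgroup.range_subtype, Subgroup.relIndex_top_right] at h8
    rw [h8]
    exact hp

/-- **The conjecture for algebras with zero divisors.** -/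
theorem conj_of_topG0 (h : TopG0) (hk : IsGlobalFunctionField k) (hA : Anis k K A n)
    (hn : 3 ≤ n) (h2 : (2 : k) ≠ 0) (hdiv : ∃ x : A, x ≠ 0 ∧ ¬ IsUnit x)
    (f : A →ₐ[K] Matrix (Fin n) (Fin n) Ω) :
    ∃ δ : H732F.GK f →* H732F.HA A n (H732F.Adiv k K A), H732F.IsDiagonal δ ∧ DenseRange δ ∧
      ∀ M : Subgroup (H732F.GK f), M.Normal → M.index ≠ 0 → H732F.IsOpenPreimage δ M := by
  have hKf : FiniteDimensional k K := (H519.quad hA.fixed hA.star_ne).1
  have hAf : FiniteDimensional K A := FiniteDimensional.of_finrank_pos (by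
    rw [hA.finrank_eq]; positivity)
  have hAk : FiniteDimensional k A := Module.Finite.trans K A
  exact conj_of_solvF hk hA hn f (Module.finBasis k A)
    (solvAtF_of_topG0 h hk hA hn h2 hdiv f _)

end

end Vale.Agent.P011.H518.R8
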