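import Vale.Agent.P011.H518.R8.CosetA
import Vale.Agent.P011.H518.R8.Top0
import Vale.Agent.P011.H182.Nma

/-!
# Strong approximation in cosets for the special unitary group of a plane
-/

open Module Matrix

set_option linter.unusedSectionVars false

namespace Vale.Agent.P011.H518.R8

open Vale.Agent.P011.H738 Vale.Agent.P011.H271 Vale.Agent.P011.H305 Vale.Agent.P011.H698
open Vale.Agent.P011.Two (hh An Uh e₁ IsDiag)
open Vale.Agent.P011.H699 (G0 mem_G0 nrd2)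
open Vale.Agent.P011.H182 (na Ig)
open Vale.Agent.P011S

theorem na_lt {k D : Type} [Field k] [DivisionRing D] [Algebra k D] {N : ℕ}
    (B : Basis (Fin N) k D) (a : AbsoluteValue k ℝ) {x : D} {ε : ℝ} (hε : 0 < ε)
    (h : ∀ i, a (B.repr x i) < ε / (N + 1)) : na B a x < ε := by
  have h1 : na B a x ≤ ∑ _i : Fin N, ε / (N + 1) := Finset.sum_le_sum fun i _ => (h i).le
  refine h1.trans_lt ?_
  rw [Finset.sum_const, Finset.card_univ, Fintype.card_fin, nsmul_eq_mul]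
  have h2 : (0 : ℝ) < (N : ℝ) + 1 := by positivity
  rw [← mul_div_assoc, div_lt_iff₀ h2]
  nlinarith

variable {k K D Ω : Type} [Field k] [GFF k] [Field K] [StarRing K] [DivisionRing D] [StarRing D]
  [Algebra k K] [Algebra k D] [Algebra K D] [IsScalarTower k K D] {d : kˣ} {s : K} {n N : ℕ}
  [Field Ω] [Algebra K Ω]

/-- The homomorphism from the units of the algebra of matrices. -/
noncomputable def Gs.th (G : Gs D) : G.Mˣ →* ((D × D) ≃ₗ[D] (D × D)) :=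
  (Th (D := D)).comp (Units.map (G.mat : G.M →* Matrix (Fin 2) (Fin 2) D))

theorem Gs.th_surjective (G : Gs D) : Function.Surjective G.th := by
  intro u
  obtain ⟨X, rfl⟩ := Th_surjective u
  exact ⟨(Units.mapEquiv (G.mat : G.M ≃* Matrix (Fin 2) (Fin 2) D)).symm X, by
    change Th (Units.mapEquiv (G.mat : G.M ≃* Matrix (Fin 2) (Fin 2) D)
      ((Units.mapEquiv (G.mat : G.M ≃* Matrix (Fin 2) (Fin 2) D)).symm X)) = Th X
    rw [MulEquiv.apply_symm_apply]⟩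

theorem Gs.mul_star_iff (G : Gs D) (X : G.M) :
    G.mat X * G.Hi * (G.mat X)ᴴ = G.Hi ↔ X * star X = 1 := by
  have h1 : G.mat (X * star X) = G.mat X * G.Hi * (G.mat X)ᴴ * G.H := by
    rw [map_mul, G.mat_star]
    simp only [Matrix.mul_assoc]
  constructor
  · intro h
    apply G.mat.injective
    rw [h1, h, G.Hi_H, map_one]
  · intro h
    have h2 : G.mat X * G.Hi * (G.mat X)ᴴ * G.H * G.Hi = G.Hi := by
      rw [← h1, h, map_one, Matrix.one_mul]
    rwa [Matrix.mul_assoc _ G.H, G.H_Hi, Matrix.mul_one] at h2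

theorem Gs.th_mem (G : Gs D) {g : D} (hG : G.Hi = Matrix.diagonal ![1, g])
    (f : D →ₐ[K] Matrix (Fin n) (Fin n) Ω) (X : G.Mˣ) :
    G.th X ∈ G0 f g ↔ X ∈ SUA (G.spl f) := by
  have h1 : G.th X = Th (Units.map (G.mat : G.M →* Matrix (Fin 2) (Fin 2) D) X) := rfl
  have h2 : X ∈ SUA (G.spl f) ↔ (X : G.M) * star (X : G.M) = 1 ∧ (G.spl f (X : G.M)).det = 1 :=
    Iff.rfl
  rw [mem_G0, h1, Th_mem_Uh, nrd2_Th, h2, G.det_spl, ← hG]
  exact and_congr_left fun _ => G.mul_star_iff (X : G.M)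

/-- **Strong approximation in cosets** for the special unitary group of a plane: every element is
congruent modulo a normal subgroup of finite index to an element close to one at the places of
`T'`, with integral entries at the other places, except `q`. -/
theorem coset_G0 [StarModule K D] (hk : IsGlobalFunctionField k) (hS : SetF k K D d s)
    (hn : 2 ≤ n) (hdeg : finrank K D = n ^ 2) {g : D} (hg : star g = g) (han : An g)
    (f : D →ₐ[K] Matrix (Fin n) (Fin n) Ω) (B : Basis (Fin N) k D) (T₀ : Finset (Place k)) :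
    ∃ (q : Place k) (T : Finset (Place k)), T₀ ⊆ T ∧ q ∉ T ∧
      (∃ α : q.comp, α ^ 2 = algebraMap k q.comp (d : k)) ∧
      ∀ Q : Subgroup ((D × D) ≃ₗ[D] (D × D)), Q ≤ G0 f g →
        (∀ a ∈ G0 f g, ∀ x ∈ Q, a * x * a⁻¹ ∈ Q) → Q.relIndex (G0 f g) ≠ 0 →
        ∀ x ∈ G0 f g, ∀ T' : Finset (Place k), T ⊆ T' → q ∉ T' → ∀ ε : ℝ, 0 < ε →
        ∃ x' ∈ G0 f g, x⁻¹ * x' ∈ Q ∧
          (∀ v ∈ T', na B v.abv ((x' (1, 0)).1 - 1) < ε ∧ na B v.abv (x' (1, 0)).2 < ε ∧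
            na B v.abv (x' (0, 1)).1 < ε ∧ na B v.abv ((x' (0, 1)).2 - 1) < ε) ∧
          ∀ v, v ∉ T' → v ≠ q → Ig B v.abv (x' (1, 0)).1 ∧ Ig B v.abv (x' (1, 0)).2 ∧
            Ig B v.abv (x' (0, 1)).1 ∧ Ig B v.abv (x' (0, 1)).2 := by
  have hcen := hS.cen
  have hfin := hS.fin
  have hg0 : g ≠ 0 := by
    rintro rfl
    have h1 := han (0, 1) (by simp [hh])
    exact one_ne_zero (congrArg Prod.snd h1)
  obtain ⟨G, hG⟩ : ∃ G : Gs D, G = ⟨g⁻¹, by rw [star_inv₀, hg], inv_ne_zero hg0⟩ := ⟨_, rfl⟩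
  have hGg : G.g = g⁻¹ := by rw [hG]
  have hHi : G.Hi = Matrix.diagonal ![1, g] := by
    rw [Gs.Hi, hGg, inv_inv]
  have hanG : An G.g := by
    rw [hGg]
    intro x hx
    have h5 := han (x.1, x.2 * g⁻¹) (by
      simp only [hh] at hx ⊢
      rw [← hx, star_mul, star_inv₀, hg]
      have : x.2 * g⁻¹ * g = x.2 := by rw [mul_assoc, inv_mul_cancel₀ hg0, mul_one]
      rw [this, mul_assoc])
    have h6 := congrArg Prod.fst h5
    have h7 := congrArg Prod.snd h5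
    exact Prod.ext h6 ((mul_eq_zero.mp h7).resolve_right (inv_ne_zero hg0))
  have hA := G.anisM hS hdeg hanG
  obtain ⟨q, T, hTT, hqT, ⟨φ⟩, hmain⟩ := coset_A hk hA (by omega) G.not_div (G.spl f) (G.bas B) T₀
  refine ⟨q, T, hTT, hqT, ⟨φ s, ?_⟩, ?_⟩
  · rw [← map_pow, hS.sq, φ.commutes]
  intro Q hQ hQn hQi x hx T' hTT' hqT' ε hε
  have hmem := G.th_mem hHi f
  -- the subgroup of the matrices
  obtain ⟨QA, hQA⟩ : ∃ QA : Subgroup (SUA (G.spl f)),
      QA = (Q.comap G.th).subgroupOf (SUA (G.spl f)) := ⟨_, rfl⟩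
  have hQA' : ∀ y : SUA (G.spl f), y ∈ QA ↔ G.th (y : G.Mˣ) ∈ Q := fun y => by
    rw [hQA, Subgroup.mem_subgroupOf, Subgroup.mem_comap]
  have hnorm : QA.Normal := ⟨fun y hy b => by
    rw [hQA'] at hy ⊢
    have h1 : G.th ((b * y * b⁻¹ : SUA (G.spl f)) : G.Mˣ) =
        G.th (b : G.Mˣ) * G.th (y : G.Mˣ) * (G.th (b : G.Mˣ))⁻¹ := by
      rw [← map_mul, ← map_inv, ← map_mul]
      rfl
    rw [h1]
    exact hQn _ ((hmem _).mpr b.2) _ hy⟩
  have hmap : (SUA (G.spl f)).map G.th = G0 f g := by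
    ext u
    constructor
    · rintro ⟨a, ha, rfl⟩
      exact (hmem a).mpr ha
    · intro hu
      obtain ⟨a, rfl⟩ := G.th_surjective u
      exact ⟨a, (hmem a).mp hu, rfl⟩
  have hidx : QA.index ≠ 0 := by
    have h1 : QA.index = Q.relIndex (G0 f g) := by
      rw [← hmap, ← Subgroup.relIndex_comap, hQA]
      rfl
    rw [h1]
    exact hQi
  obtain ⟨X, rfl⟩ := G.th_surjective x
  have hX : X ∈ SUA (G.spl f) := (hmem X).mp hx
  obtain ⟨X', h1, h2, h3⟩ := hmain QA hnorm hidx ⟨X, hX⟩⁻¹ T' hTT' hqT' (ε / (N + 1))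
    (by positivity)
  have hent : ∀ y : D × D, ((G.th (X' : G.Mˣ))⁻¹) y = act (G.mat ((X' : G.Mˣ) : G.M)) y :=
    fun y => rfl
  have h10 : ((G.th (X' : G.Mˣ))⁻¹) (1, 0) =
      (G.mat ((X' : G.Mˣ) : G.M) 0 0, G.mat ((X' : G.Mˣ) : G.M) 0 1) := by
    rw [hent, act_apply]
    simp
  have h01 : ((G.th (X' : G.Mˣ))⁻¹) (0, 1) =
      (G.mat ((X' : G.Mˣ) : G.M) 1 0, G.mat ((X' : G.Mˣ) : G.M) 1 1) := by
    rw [hent, act_apply]
    simp
  refine ⟨(G.th (X' : G.Mˣ))⁻¹, inv_mem ((hmem _).mpr X'.2), ?_, fun v hv => ?_,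
    fun v hv hvq => ?_⟩
  · rw [inv_inv] at h1
    have h4 : (⟨X, hX⟩ : SUA (G.spl f))⁻¹ * (⟨X, hX⟩ * X') * (⟨X, hX⟩ : SUA (G.spl f)) ∈ QA := by
      have := hnorm.conj_mem _ h1 (⟨X, hX⟩ : SUA (G.spl f))⁻¹
      rwa [inv_inv] at this
    have h5 : (⟨X, hX⟩ : SUA (G.spl f))⁻¹ * (⟨X, hX⟩ * X') * (⟨X, hX⟩ : SUA (G.spl f)) =
        X' * ⟨X, hX⟩ := by group
    rw [h5] at h4
    have h6 := inv_mem h4
    rw [hQA'] at h6
    have h7 : G.th (((X' * ⟨X, hX⟩)⁻¹ : SUA (G.spl f)) : G.Mˣ) =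
        (G.th X)⁻¹ * (G.th (X' : G.Mˣ))⁻¹ := by
      rw [← map_inv, ← map_inv, ← map_mul]
      congr 1
    rwa [h7] at h6
  · have h4 := h2 v hv
    have key : ∀ i j : Fin 2, ∀ l : Fin N,
        v.abv (B.repr (G.mat (((X' : G.Mˣ) : G.M) - 1) i j) l) < ε / (N + 1) := by
      intro i j l
      rw [← G.bas_repr B]
      exact h4 _
    have e : G.mat (((X' : G.Mˣ) : G.M) - 1) = G.mat ((X' : G.Mˣ) : G.M) - 1 := by
      rw [map_sub, map_one]
    rw [e] at key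
    rw [h10, h01]
    refine ⟨na_lt B _ hε fun l => ?_, na_lt B _ hε fun l => ?_, na_lt B _ hε fun l => ?_,
      na_lt B _ hε fun l => ?_⟩
    · simpa using key 0 0 l
    · simpa using key 0 1 l
    · simpa using key 1 0 l
    · simpa using key 1 1 l
  · have h4 := h3 v hv hvq
    have key : ∀ i j : Fin 2, Ig B v.abv (G.mat ((X' : G.Mˣ) : G.M) i j) := by
      intro i j l
      rw [← G.bas_repr B]
      exact h4 _
    rw [h10, h01]
    exact ⟨key 0 0, key 0 1, key 1 0, key 1 1⟩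

end Vale.Agent.P011.H518.R8
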