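import Vale.Agent.P011.H518.R8.Solv
import Vale.Agent.P011.Two.Defs

/-!
# The planes with a diagonal form
-/

open Module Matrix TensorProduct

set_option linter.unusedSectionVars false

namespace Vale.Agent.P011.H518.R8

open Vale.Agent.P011.H738 Vale.Agent.P011.H271 Vale.Agent.P011.H305 Vale.Agent.P011.H698
open Vale.Agent.P011S

/-- **The input**, for diagonal forms: over a global function field of characteristic not two the
special unitary groups of the anisotropic hermitian planes `⟨1, g⟩` over division algebras of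
degree at least two have no normal subgroup of prime index. -/
def TopDiag : Prop :=
  ∀ (k K D Ω : Type) [Field k] [Field K] [StarRing K] [DivisionRing D] [StarRing D]
    [Algebra k K] [Algebra k D] [Algebra K D] [IsScalarTower k K D] [StarModule K D]
    [Field Ω] [Algebra K Ω] (_ : IsGlobalFunctionField k) (d : kˣ) (s : K)
    (_ : SetF k K D d s) (n : ℕ) (_ : 2 ≤ n) (_ : finrank K D = n ^ 2)
    (f : D →ₐ[K] Matrix (Fin n) (Fin n) Ω) (g : D) (_ : star g = g) (_ : Two.An g)
    (Q : Subgroup (SU f (Matrix.diagonal ![1, g]))) (_ : Q.Normal), ¬ Q.index.Prime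

theorem TopTwo.topDiag (h : TopTwo) : TopDiag := by
  intro k K D Ω _ _ _ _ _ _ _ _ _ _ _ _ hk d s hS n hn hdeg f g hg han Q hQ
  refine h k K D Ω hk d s hS n hn hdeg f _ ⟨?_, fun v hv => ?_⟩ Q hQ
  · rw [Matrix.diagonal_conjTranspose]
    congr 1
    ext i
    fin_cases i
    · simp
    · simpa using hg
  · have h1 : (star (v 0), star (v 1)) = (0 : D × D) := by
      apply han
      simp only [Two.hh, star_star]
      rw [← hv]
      simp [dotProduct, Fin.sum_univ_two, Matrix.mulVec_diagonal, mul_assoc]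
    ext i
    fin_cases i
    · exact star_eq_zero.mp (congrArg Prod.fst h1)
    · exact star_eq_zero.mp (congrArg Prod.snd h1)

/-- The diagonal form of an anisotropic matrix. -/
theorem an_of {D : Type} [DivisionRing D] [StarRing D] {g : D}
    (h : IsAnisotropicForm (Matrix.diagonal ![1, g])) : Two.An g := by
  intro x hx
  have h1 := h.2 ![star x.1, star x.2] (by
    simp only [Two.hh] at hx
    rw [← hx]
    simp [dotProduct, Fin.sum_univ_two, Matrix.mulVec_diagonal, mul_assoc])
  have h2 := congrFun h1 0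
  have h3 := congrFun h1 1
  simp only [Matrix.cons_val_zero, Matrix.cons_val_one, Pi.zero_apply] at h2 h3
  exact Prod.ext (star_eq_zero.mp h2) (star_eq_zero.mp h3)

section

variable {k K A Ω : Type} [Field k] [Field K] [StarRing K] [Ring A] [StarRing A]
  [Algebra k K] [Algebra k A] [Algebra K A] [IsScalarTower k K A] [StarModule K A] {n N : ℕ}
  [Field Ω] [Algebra K Ω]

/-- **The solvable step for algebras with zero divisors.** -/
theorem solvAtF_of_topDiag (h : TopDiag) (hk : IsGlobalFunctionField k) (hA : Anis k K A n)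
    (hn : 3 ≤ n) (h2 : (2 : k) ≠ 0) (hdiv : ∃ x : A, x ≠ 0 ∧ ¬ IsUnit x)
    (f : A →ₐ[K] Matrix (Fin n) (Fin n) Ω) (B : Basis (Fin N) k A) : SolvAtF k K f B := by
  intro Q H hQ hH hQH hi hnear hp hcomm hV
  have hgff := gff_of_isGlobal hk
  have hn0 : n ≠ 0 := by omega
  have hKA : FiniteDimensional K A := FiniteDimensional.of_finrank_pos (by
    rw [hA.finrank_eq]; positivity)
  have := hA.central
  have := hA.simple
  -- the open subgroup is the whole group
  have hT : H = ⊤ := by
    obtain ⟨T, hT, ε, -, hε⟩ := hnear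
    rw [eq_top_iff]
    exact fun g _ => hε g fun v hv => absurd (hT v hv) (adiv_empty hA hn0 hdiv v)
  rw [hT, Subgroup.relIndex_top_right] at hp
  -- the plane
  obtain ⟨P⟩ := exists_pe hA hn0 hdiv
  obtain ⟨d, hnd, hd⟩ := P.exists_deg hA.finrank_eq
  have hd2 : 2 ≤ d := by omega
  have hA' := P.anis hA hd
  obtain ⟨a, s, hS⟩ := exists_setF (D := P.Cr) hA' (by omega) h2
  have hcen := hS.cen
  have hfin := hS.fin
  obtain ⟨M, _, _, _, _, ⟨f'⟩⟩ := H268.exists_galois_split' (K := K) (A := P.Cr) hd
  let Φ := P.iso f f' (by omega) hA.finrank_eq hnd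
  have h5 : (Q.map Φ.toMonoidHom).index.Prime := by
    rw [Subgroup.index_map_of_bijective]
    · exact hp
    · exact Φ.bijective
  exact h k K P.Cr M hk a s hS d hd2 hd f' P.gg⁻¹ (by rw [star_inv₀, P.star_gg])
    (an_of (P.isAnisotropic hA.anisotropic)) (Q.map Φ.toMonoidHom) (hQ.map _ Φ.surjective) h5

/-- **The conjecture for algebras with zero divisors.** -/
theorem conj_of_topDiag (h : TopDiag) (hk : IsGlobalFunctionField k) (hA : Anis k K A n)
    (hn : 3 ≤ n) (h2 : (2 : k) ≠ 0) (hdiv : ∃ x : A, x ≠ 0 ∧ ¬ IsUnit x)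
    (f : A →ₐ[K] Matrix (Fin n) (Fin n) Ω) :
    ∃ δ : H732F.GK f →* H732F.HA A n (H732F.Adiv k K A), H732F.IsDiagonal δ ∧ DenseRange δ ∧
      ∀ M : Subgroup (H732F.GK f), M.Normal → M.index ≠ 0 → H732F.IsOpenPreimage δ M := by
  have hKf : FiniteDimensional k K := (H519.quad hA.fixed hA.star_ne).1
  have hAf : FiniteDimensional K A := FiniteDimensional.of_finrank_pos (by
    rw [hA.finrank_eq]; positivity)
  have hAk : FiniteDimensional k A := Module.Finite.trans K A
  exact conj_of_solvF hk hA hn f (Module.finBasis k A)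
    (solvAtF_of_topDiag h hk hA hn h2 hdiv f _)

end

end Vale.Agent.P011.H518.R8
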