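import Vale.Agent.P011.H518.R8.Mat
import Vale.Agent.P011.H268.Nrd

/-!
# The special unitary group of `A` is the special unitary group of a plane over the corner
-/

open Module Matrix

set_option linter.unusedSectionVars false

namespace Vale.Agent.P011.H518.R8

open Vale.Agent.P011.H738 (SUA Anis)
open Vale.Agent.P011S

/-- The decomposition exists. -/
theorem exists_pe {k K A : Type} [Field k] [H271.GFF k] [Field K] [StarRing K] [Ring A]
    [StarRing A] [Algebra k K] [Algebra k A] [Algebra K A] [IsScalarTower k K A] [StarModule K A]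
    {n : ℕ} (hA : Anis k K A n) (hn : n ≠ 0) (hdiv : ∃ x : A, x ≠ 0 ∧ ¬ IsUnit x) :
    Nonempty (Pe A) := by
  obtain ⟨e, u, v, h1, h2, h3, h4, h5, h6, h7, h8, h9⟩ := H401.exists_peirce hA hn hdiv
  have := hA.simple
  refine ⟨⟨e, u, v, h1, h2, h3, h4, h5, h6, h7, h8, h9, ?_⟩⟩
  rintro rfl
  rw [mul_zero] at h6
  rw [← h6, zero_mul, sub_zero] at h8
  exact one_ne_zero h8.symm

namespace Pe

section alg

variable {k K A : Type} [Field k] [Field K] [StarRing K] [Ring A] [StarRing A] [Algebra k K]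
  [Algebra k A] [Algebra K A] [IsScalarTower k K A] [StarModule K A] {n d : ℕ} (P : Pe A)

instance instTower : IsScalarTower k K P.Cr :=
  ⟨fun a b x => P.val_inj (smul_assoc a b (P.val x))⟩

instance instStarModule : StarModule K P.Cr :=
  ⟨fun c x => P.val_inj (star_smul c (P.val x))⟩

theorem finrank_eq : finrank K A = 4 * finrank K P.Cr := by
  rw [(P.mxA K).toLinearEquiv.finrank_eq, finrank_matrix, Fintype.card_fin]

theorem exists_deg (h : finrank K A = n ^ 2) : ∃ d, n = 2 * d ∧ finrank K P.Cr = d ^ 2 := by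
  have h1 := P.finrank_eq (K := K)
  rw [h] at h1
  have h2 : 2 ∣ n := by
    have h3 : 2 ∣ n ^ 2 := ⟨2 * finrank K P.Cr, by rw [h1]; ring⟩
    exact Nat.prime_two.dvd_of_dvd_pow h3
  obtain ⟨d, rfl⟩ := h2
  refine ⟨d, rfl, ?_⟩
  have h3 : 4 * finrank K P.Cr = 4 * d ^ 2 := by rw [← h1]; ring
  omega

theorem isCentral (h : Algebra.IsCentral K A) : Algebra.IsCentral K P.Cr := by
  refine ⟨fun x hx => ?_⟩
  have hx' : ∀ y : P.Cr, y * x = x * y := fun y => Subalgebra.mem_center_iff.mp hx y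
  obtain ⟨M, hM⟩ : ∃ M, M = Matrix.scalar (Fin 2) x := ⟨_, rfl⟩
  have hcomm : ∀ N : Matrix (Fin 2) (Fin 2) P.Cr, N * M = M * N := by
    intro N
    rw [hM]
    exact ((Matrix.scalar_commute x (fun y => (hx' y).symm) N).eq).symm
  have h1 : P.mx.symm M ∈ Subalgebra.center K A := by
    rw [Subalgebra.mem_center_iff]
    intro a
    apply P.mx.injective
    rw [map_mul, map_mul, P.mx.apply_symm_apply, hcomm]
  have h2 := h.out h1
  rw [Algebra.mem_bot] at h2 ⊢
  obtain ⟨c, hc⟩ := h2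
  refine ⟨c, ?_⟩
  have h3 : M = c • (1 : Matrix (Fin 2) (Fin 2) P.Cr) := by
    rw [← P.mx.apply_symm_apply M, ← hc, Algebra.algebraMap_eq_smul_one, P.mx_smul, map_one]
  have h4 : x = M 0 0 := by
    rw [hM, Matrix.scalar_apply, Matrix.diagonal_apply_eq]
  rw [h4, h3, Matrix.smul_apply, Matrix.one_apply_eq, Algebra.algebraMap_eq_smul_one]

theorem anis (hA : Anis k K A n) (hd : finrank K P.Cr = d ^ 2) : Anis k K P.Cr d where
  fixed := hA.fixed
  star_ne := hA.star_ne
  central := P.isCentral hA.central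
  simple := inferInstance
  finrank_eq := hd
  anisotropic x hx := by
    rcases mul_eq_zero.mp hx with h | h
    · exact star_eq_zero.mp h
    · exact h

end alg

section form

variable {A : Type} [Ring A] [StarRing A] (P : Pe A)

theorem star_mul_iff (a b : A) : (P.mx b)ᴴ * P.HH * P.mx a = P.HH ↔ star b * a = 1 := by
  have h1 : P.HI * ((P.mx b)ᴴ * P.HH * P.mx a) = P.mx (star b * a) := by
    rw [← mul_assoc, ← mul_assoc, ← P.mx_star, mul_assoc (P.mx (star b)), P.HI_HH, mul_one, map_mul]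
  constructor
  · intro h
    apply P.mx.injective
    rw [← h1, h, P.HI_HH, map_one]
  · intro h
    rw [h, map_one] at h1
    have h2 : P.HH * (P.HI * ((P.mx b)ᴴ * P.HH * P.mx a)) = P.HH * 1 := by rw [h1]
    rwa [← mul_assoc, P.HH_HI, one_mul, mul_one] at h2

theorem isAnisotropic (hA : ∀ x : A, star x * x = 0 → x = 0) : IsAnisotropicForm P.HH := by
  refine ⟨P.HH_star, fun v hv => ?_⟩
  obtain ⟨M, hM⟩ : ∃ M : Matrix (Fin 2) (Fin 2) P.Cr, M = Matrix.of fun i j => if j = 0 then v i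
    else 0 := ⟨_, rfl⟩
  have hM1 : ∀ i, M i 1 = 0 := fun i => by rw [hM]; simp
  have hM0 : ∀ i, M i 0 = v i := fun i => by rw [hM]; simp
  have h1 : Mᴴ * P.HH * M = 0 := by
    ext i j
    rw [Matrix.zero_apply]
    by_cases hj : j = 1
    · subst hj
      rw [Matrix.mul_apply]
      exact Finset.sum_eq_zero fun l _ => by rw [hM1, mul_zero]
    by_cases hi : i = 1
    · subst hi
      rw [mul_assoc, Matrix.mul_apply]
      exact Finset.sum_eq_zero fun l _ => by
        rw [Matrix.conjTranspose_apply, hM1, star_zero, zero_mul]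
    · have hi0 : i = 0 := by omega
      have hj0 : j = 0 := by omega
      subst hi0
      subst hj0
      rw [← hv, mul_assoc, Matrix.mul_apply]
      refine Finset.sum_congr rfl fun l _ => ?_
      rw [Matrix.conjTranspose_apply, hM0]
      congr 1
      rw [Matrix.mul_apply, Matrix.mulVec, dotProduct]
      exact Finset.sum_congr rfl fun i _ => by rw [hM0]
  have h2 : P.mx (star (P.mx.symm M) * P.mx.symm M) = 0 := by
    have h3 : P.HI * (Mᴴ * P.HH * M) = P.mx (star (P.mx.symm M) * P.mx.symm M) := by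
      have h4 : P.mx (P.mx.symm M) = M := P.mx.apply_symm_apply M
      rw [← mul_assoc, ← mul_assoc]
      nth_rewrite 1 [← h4]
      rw [← P.mx_star, mul_assoc (P.mx (star _)), P.HI_HH, mul_one, map_mul, h4]
    rw [← h3, h1, mul_zero]
  have h3 := hA _ ((map_eq_zero_iff P.mx P.mx.injective).mp h2)
  have h4 : M = 0 := by
    rw [← P.mx.apply_symm_apply M, h3, map_zero]
  ext i
  rw [← hM0, h4]
  rfl

end form

section iso

variable {K A Ω Ω' : Type} [Field K] [Ring A] [StarRing A] [Algebra K A]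
  [Field Ω] [Algebra K Ω] [Field Ω'] [Algebra K Ω'] {n d : ℕ} (P : Pe A)

/-- The splitting of `A` given by a splitting of the corner. -/
noncomputable def spl (f' : P.Cr →ₐ[K] Matrix (Fin d) (Fin d) Ω') :
    A →ₐ[K] Matrix (Fin 2 × Fin d) (Fin 2 × Fin d) Ω' :=
  (Matrix.compAlgEquiv (Fin 2) (Fin d) Ω' K).toAlgHom.comp
    (f'.mapMatrix.comp (P.mxA K).toAlgHom)

theorem det_spl (f' : P.Cr →ₐ[K] Matrix (Fin d) (Fin d) Ω') (a : A) :
    (P.spl f' a).det = redNorm f' (Fin 2) (P.mx a) := rfl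

theorem det_iff [FiniteDimensional K A] [Algebra.IsCentral K A] [IsSimpleRing A]
    (f : A →ₐ[K] Matrix (Fin n) (Fin n) Ω) (f' : P.Cr →ₐ[K] Matrix (Fin d) (Fin d) Ω')
    (hn : 0 < n) (hA : finrank K A = n ^ 2) (hnd : n = 2 * d) (a : A) :
    (f a).det = 1 ↔ redNorm f' (Fin 2) (P.mx a) = 1 := by
  obtain ⟨M, _, i, j, hij⟩ := H268.exists_common K Ω Ω'
  let e : Fin 2 × Fin d ≃ Fin n := finProdFinEquiv.trans (finCongr hnd.symm)
  let g : A →ₐ[K] Matrix (Fin n) (Fin n) Ω' :=
    (Matrix.reindexAlgEquiv K Ω' e).toAlgHom.comp (P.spl f')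
  have h1 : (g a).det = redNorm f' (Fin 2) (P.mx a) := by
    rw [← P.det_spl]
    exact Matrix.det_reindex_self e (P.spl f' a)
  have h2 := H268.det_compare_gen hn hA f g a i j hij
  rw [h1] at h2
  constructor
  · intro h
    apply j.injective
    rw [← h2, h, map_one, map_one]
  · intro h
    apply i.injective
    rw [h2, h, map_one, map_one]

/-- The special unitary group as a preimage. -/
theorem mem_iff [FiniteDimensional K A] [Algebra.IsCentral K A] [IsSimpleRing A]
    (f : A →ₐ[K] Matrix (Fin n) (Fin n) Ω) (f' : P.Cr →ₐ[K] Matrix (Fin d) (Fin d) Ω')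
    (hn : 0 < n) (hA : finrank K A = n ^ 2) (hnd : n = 2 * d) (a : Aˣ) :
    Units.mapEquiv (P.mx : A ≃* Matrix (Fin 2) (Fin 2) P.Cr) a ∈ SU f' P.HH ↔ a ∈ SUA f := by
  have h1 : Units.mapEquiv (P.mx : A ≃* Matrix (Fin 2) (Fin 2) P.Cr) a ∈ SU f' P.HH ↔
      (P.mx (a : A))ᴴ * P.HH * P.mx (a : A) = P.HH ∧ redNorm f' (Fin 2) (P.mx (a : A)) = 1 :=
    Iff.rfl
  have h2 : a ∈ SUA f ↔ (a : A) * star (a : A) = 1 ∧ (f (a : A)).det = 1 := Iff.rfl
  rw [h1, h2, P.star_mul_iff, P.det_iff f f' hn hA hnd]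
  refine and_congr_left fun _ => ⟨fun h => ?_, fun h => ?_⟩
  · have h3 : star (a : A) = ((a⁻¹ : Aˣ) : A) := Units.eq_inv_of_mul_eq_one_right h
    rw [h3, Units.mul_inv]
  · have h3 : star (a : A) = ((a⁻¹ : Aˣ) : A) := by
      rw [← Units.mul_right_inj a, h, Units.mul_inv]
    rw [h3, Units.inv_mul]

/-- **The isomorphism of the special unitary groups.** -/
noncomputable def iso [FiniteDimensional K A] [Algebra.IsCentral K A] [IsSimpleRing A]
    (f : A →ₐ[K] Matrix (Fin n) (Fin n) Ω) (f' : P.Cr →ₐ[K] Matrix (Fin d) (Fin d) Ω')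
    (hn : 0 < n) (hA : finrank K A = n ^ 2) (hnd : n = 2 * d) : SUA f ≃* SU f' P.HH where
  toFun g := ⟨Units.mapEquiv (P.mx : A ≃* Matrix (Fin 2) (Fin 2) P.Cr) g.1,
    (P.mem_iff f f' hn hA hnd g.1).mpr g.2⟩
  invFun g := ⟨(Units.mapEquiv (P.mx : A ≃* Matrix (Fin 2) (Fin 2) P.Cr)).symm g.1,
    (P.mem_iff f f' hn hA hnd _).mp (by rw [MulEquiv.apply_symm_apply]; exact g.2)⟩
  left_inv g := Subtype.ext (MulEquiv.symm_apply_apply _ _)
  right_inv g := Subtype.ext (MulEquiv.apply_symm_apply _ _)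
  map_mul' g h := Subtype.ext (map_mul _ _ _)

end iso

end Pe

end Vale.Agent.P011.H518.R8
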