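import Vale.Agent.P011.H518.R8.Corner

/-!
# The isomorphism with the ring of two by two matrices over the corner
-/

open Module Matrix

set_option linter.unusedSectionVars false

namespace Vale.Agent.P011.H518.R8

variable {A : Type} [Ring A] [StarRing A]

namespace Pe

variable (P : Pe A)

theorem fac1 (a : A) : P.e * (P.e * a * P.e) = P.e * a * P.e ∧
    P.e * a * P.e * P.e = P.e * a * P.e :=
  ⟨by rw [← mul_assoc, ← mul_assoc, P.ee], by rw [mul_assoc, P.ee]⟩

theorem fac2 (a : A) : P.e * (P.e * a * P.v) = P.e * a * P.v ∧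
    P.e * a * P.v * P.e = P.e * a * P.v :=
  ⟨by rw [← mul_assoc, ← mul_assoc, P.ee], by rw [mul_assoc, P.ve]⟩

theorem fac3 (a : A) : P.e * (P.u * a * P.e) = P.u * a * P.e ∧
    P.u * a * P.e * P.e = P.u * a * P.e :=
  ⟨by rw [← mul_assoc, ← mul_assoc, P.eu], by rw [mul_assoc, P.ee]⟩

theorem fac4 (a : A) : P.e * (P.u * a * P.v) = P.u * a * P.v ∧
    P.u * a * P.v * P.e = P.u * a * P.v :=
  ⟨by rw [← mul_assoc, ← mul_assoc, P.eu], by rw [mul_assoc, P.ve]⟩

/-- The matrix of an element. -/
def mxf (a : A) : Matrix (Fin 2) (Fin 2) P.Cr :=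
  !![P.cr (P.e * a * P.e) (P.fac1 a), P.cr (P.e * a * P.v) (P.fac2 a);
    P.cr (P.u * a * P.e) (P.fac3 a), P.cr (P.u * a * P.v) (P.fac4 a)]

/-- The element with a given matrix. -/
def unf (M : Matrix (Fin 2) (Fin 2) P.Cr) : A :=
  P.val (M 0 0) + P.val (M 0 1) * P.u + P.v * P.val (M 1 0) + P.v * P.val (M 1 1) * P.u

theorem val00 (a : A) : P.val (P.mxf a 0 0) = P.e * a * P.e := rfl
theorem val01 (a : A) : P.val (P.mxf a 0 1) = P.e * a * P.v := rfl
theorem val10 (a : A) : P.val (P.mxf a 1 0) = P.u * a * P.e := rfl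
theorem val11 (a : A) : P.val (P.mxf a 1 1) = P.u * a * P.v := rfl

theorem ext2 {M N : Matrix (Fin 2) (Fin 2) P.Cr} (h00 : P.val (M 0 0) = P.val (N 0 0))
    (h01 : P.val (M 0 1) = P.val (N 0 1)) (h10 : P.val (M 1 0) = P.val (N 1 0))
    (h11 : P.val (M 1 1) = P.val (N 1 1)) : M = N := by
  ext i j
  fin_cases i <;> fin_cases j
  · exact P.val_inj h00
  · exact P.val_inj h01
  · exact P.val_inj h10
  · exact P.val_inj h11

theorem unf_mxf (a : A) : P.unf (P.mxf a) = a := by
  rw [unf, val00, val01, val10, val11]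
  have h1 : P.e * a * P.v * P.u = P.e * a * (1 - P.e) := by rw [mul_assoc, P.vu]
  have h2 : P.v * (P.u * a * P.e) = (1 - P.e) * a * P.e := by
    rw [← mul_assoc, ← mul_assoc, P.vu]
  have h3 : P.v * (P.u * a * P.v) * P.u = (1 - P.e) * a * (1 - P.e) := by
    rw [← mul_assoc, ← mul_assoc, P.vu, mul_assoc, P.vu]
  rw [h1, h2, h3]
  noncomm_ring

theorem ue' (x : P.Cr) : P.u * P.val x = 0 := by
  rw [← P.e_val x, ← mul_assoc, P.ue, zero_mul]

theorem val_v (x : P.Cr) : P.val x * P.v = 0 := by
  rw [← P.val_e x, mul_assoc, P.ev, mul_zero]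

theorem vv : P.v * P.v = 0 := by
  nth_rewrite 1 [← P.ve]
  rw [mul_assoc, P.ev, mul_zero]

theorem uu : P.u * P.u = 0 := by
  nth_rewrite 2 [← P.eu]
  rw [← mul_assoc, P.ue, zero_mul]

theorem mxf_unf (M : Matrix (Fin 2) (Fin 2) P.Cr) : P.mxf (P.unf M) = M := by
  have hu : ∀ x : P.Cr, P.u * P.val x = 0 := P.ue'
  have hv : ∀ x : P.Cr, P.val x * P.v = 0 := P.val_v
  have he : ∀ x : P.Cr, P.e * P.val x = P.val x := P.e_val
  have he' : ∀ x : P.Cr, P.val x * P.e = P.val x := P.val_e
  have hev : P.e * P.v = 0 := P.ev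
  have hue : P.u * P.e = 0 := P.ue
  have huv : P.u * P.v = P.e := P.uv
  refine P.ext2 ?_ ?_ ?_ ?_
  · rw [val00, unf]
    simp only [mul_add, add_mul]
    rw [he, he', ← mul_assoc, he, mul_assoc _ P.u P.e, hue, mul_zero, ← mul_assoc, hev, zero_mul,
      zero_mul, ← mul_assoc, ← mul_assoc, hev, zero_mul, zero_mul, zero_mul]
    simp
  · rw [val01, unf]
    simp only [mul_add, add_mul]
    rw [he, hv, ← mul_assoc, he, mul_assoc _ P.u P.v, huv, he', ← mul_assoc, hev, zero_mul,
      zero_mul, ← mul_assoc, ← mul_assoc, hev, zero_mul, zero_mul, zero_mul]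
    simp
  · rw [val10, unf]
    simp only [mul_add, add_mul]
    rw [hu, zero_mul, ← mul_assoc P.u _ P.u, hu, zero_mul, zero_mul, ← mul_assoc P.u P.v _, huv,
      he, he', ← mul_assoc, ← mul_assoc, huv, he, mul_assoc, hue, mul_zero]
    simp
  · rw [val11, unf]
    simp only [mul_add, add_mul]
    rw [hu, zero_mul, ← mul_assoc P.u _ P.u, hu, zero_mul, zero_mul, ← mul_assoc P.u P.v _, huv,
      he, hv, ← mul_assoc, ← mul_assoc, huv, he, mul_assoc, huv, he']
    simp

/-- The isomorphism with the ring of matrices. -/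
def mx : A ≃+* Matrix (Fin 2) (Fin 2) P.Cr where
  toFun := P.mxf
  invFun := P.unf
  left_inv := P.unf_mxf
  right_inv := P.mxf_unf
  map_mul' a b := by
    have key : ∀ x y : A, x * (a * b) * y = x * a * P.e * (P.e * b * y) +
        x * a * P.v * (P.u * b * y) := by
      intro x y
      have h1 : x * a * P.e * (P.e * b * y) = x * a * P.e * b * y := by
        rw [← mul_assoc, ← mul_assoc, mul_assoc (x * a), P.ee]
      have h2 : x * a * P.v * (P.u * b * y) = x * a * (1 - P.e) * b * y := by
        rw [← mul_assoc, ← mul_assoc, mul_assoc (x * a), P.vu]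
      rw [h1, h2]
      noncomm_ring
    refine P.ext2 ?_ ?_ ?_ ?_
    · rw [Matrix.mul_apply, Fin.sum_univ_two, val_add, val_mul, val_mul, val00, val00, val00,
        val01, val10]
      exact key _ _
    · rw [Matrix.mul_apply, Fin.sum_univ_two, val_add, val_mul, val_mul, val00, val01, val01,
        val01, val11]
      exact key _ _
    · rw [Matrix.mul_apply, Fin.sum_univ_two, val_add, val_mul, val_mul, val10, val10, val00,
        val11, val10]
      exact key _ _
    · rw [Matrix.mul_apply, Fin.sum_univ_two, val_add, val_mul, val_mul, val10, val11, val11,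
        val01, val11]
      exact key _ _
  map_add' a b := by
    refine P.ext2 ?_ ?_ ?_ ?_
    · rw [Matrix.add_apply, val_add, val00, val00, val00, mul_add, add_mul]
    · rw [Matrix.add_apply, val_add, val01, val01, val01, mul_add, add_mul]
    · rw [Matrix.add_apply, val_add, val10, val10, val10, mul_add, add_mul]
    · rw [Matrix.add_apply, val_add, val11, val11, val11, mul_add, add_mul]

theorem mx_apply (a : A) : P.mx a = P.mxf a := rfl

section alg

variable {K : Type} [Field K] [Algebra K A]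

theorem mx_smul (c : K) (a : A) : P.mx (c • a) = c • P.mx a := by
  refine P.ext2 ?_ ?_ ?_ ?_
  · rw [Matrix.smul_apply, val_smul, mx_apply, mx_apply, val00, val00, mul_smul_comm,
      smul_mul_assoc]
  · rw [Matrix.smul_apply, val_smul, mx_apply, mx_apply, val01, val01, mul_smul_comm,
      smul_mul_assoc]
  · rw [Matrix.smul_apply, val_smul, mx_apply, mx_apply, val10, val10, mul_smul_comm,
      smul_mul_assoc]
  · rw [Matrix.smul_apply, val_smul, mx_apply, mx_apply, val11, val11, mul_smul_comm,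
      smul_mul_assoc]

variable (K) in
/-- The isomorphism of algebras. -/
noncomputable def mxA : A ≃ₐ[K] Matrix (Fin 2) (Fin 2) P.Cr :=
  AlgEquiv.ofLinearEquiv { P.mx with map_smul' := P.mx_smul } (map_one P.mx)
    (fun a b => map_mul P.mx a b)

theorem mxA_apply (a : A) : P.mxA K a = P.mx a := rfl

end alg

/-! ### The form -/

theorem star_ue : P.e * star P.u = 0 := by
  have := congrArg star P.ue
  rwa [star_mul, P.se, star_zero] at this

theorem star_eu : star P.u * P.e = star P.u := by
  have := congrArg star P.eu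
  rwa [star_mul, P.se] at this

/-- The second coefficient of the inverse form. -/
def gg : P.Cr := P.cr (P.u * star P.u) ⟨by rw [← mul_assoc, P.eu], by rw [mul_assoc, P.star_eu]⟩

theorem val_gg : P.val P.gg = P.u * star P.u := rfl

theorem star_gg : star P.gg = P.gg := P.val_inj (by
  rw [P.val_star, val_gg, star_mul, star_star])

theorem v_gg : P.v * P.val P.gg = star P.u := by
  rw [val_gg, ← mul_assoc, P.vu, sub_mul, one_mul, P.star_ue, sub_zero]

theorem gg_v : P.val P.gg * star P.v = P.u := by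
  have := congrArg star P.v_gg
  rw [star_mul, star_star] at this
  rwa [← P.val_star, P.star_gg] at this

theorem gg_ne : P.gg ≠ 0 := by
  intro h
  have h1 := P.gg_v
  rw [h, P.val_zero, zero_mul] at h1
  apply P.ne
  rw [← P.uv, ← h1, zero_mul]

/-- The matrix of the hermitian form. -/
noncomputable def HH : Matrix (Fin 2) (Fin 2) P.Cr := Matrix.diagonal ![1, P.gg⁻¹]

/-- Its inverse. -/
noncomputable def HI : Matrix (Fin 2) (Fin 2) P.Cr := Matrix.diagonal ![1, P.gg]

theorem HH_HI : P.HH * P.HI = 1 := by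
  rw [HH, HI, Matrix.diagonal_mul_diagonal, ← Matrix.diagonal_one]
  congr 1
  ext i
  fin_cases i
  · simp
  · simp [P.gg_ne]

theorem HI_HH : P.HI * P.HH = 1 := by
  rw [HH, HI, Matrix.diagonal_mul_diagonal, ← Matrix.diagonal_one]
  congr 1
  ext i
  fin_cases i
  · simp
  · simp [P.gg_ne]

theorem HH_star : P.HHᴴ = P.HH := by
  rw [HH, Matrix.diagonal_conjTranspose]
  congr 1
  ext i
  fin_cases i
  · simp
  · simp [star_inv₀, P.star_gg]

/-- The involution is the adjoint involution of the form. -/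
theorem mx_star (a : A) : P.mx (star a) * P.HI = P.HI * (P.mx a)ᴴ := by
  rw [HI]
  refine P.ext2 ?_ ?_ ?_ ?_
  · rw [Matrix.mul_diagonal, Matrix.diagonal_mul, Matrix.conjTranspose_apply, P.val_mul, P.val_mul,
      P.val_star, mx_apply, mx_apply, val00, val00]
    simp only [Matrix.cons_val_zero]
    rw [P.val_one, star_mul, star_mul, P.se, ← mul_assoc, mul_assoc _ P.e P.e, P.ee, ← mul_assoc]
  · rw [Matrix.mul_diagonal, Matrix.diagonal_mul, Matrix.conjTranspose_apply, P.val_mul, P.val_mul,
      P.val_star, mx_apply, mx_apply, val01, val10]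
    simp only [Matrix.cons_val_zero, Matrix.cons_val_one]
    rw [P.val_one, star_mul, star_mul, P.se, mul_assoc _ P.v, P.v_gg, ← mul_assoc, ← mul_assoc,
      P.ee]
  · rw [Matrix.mul_diagonal, Matrix.diagonal_mul, Matrix.conjTranspose_apply, P.val_mul, P.val_mul,
      P.val_star, mx_apply, mx_apply, val10, val01]
    simp only [Matrix.cons_val_zero, Matrix.cons_val_one]
    rw [P.val_one, star_mul, star_mul, P.se, mul_assoc _ P.e P.e, P.ee, ← mul_assoc (P.val P.gg),
      P.gg_v, ← mul_assoc]
  · rw [Matrix.mul_diagonal, Matrix.diagonal_mul, Matrix.conjTranspose_apply, P.val_mul, P.val_mul,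
      P.val_star, mx_apply, mx_apply, val11, val11]
    simp only [Matrix.cons_val_one, Matrix.cons_val_zero]
    rw [star_mul, star_mul, mul_assoc _ P.v, P.v_gg, ← mul_assoc (P.val P.gg), P.gg_v, ← mul_assoc]

end Pe

end Vale.Agent.P011.H518.R8
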