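import Vale.Agent.P011.H518.R8.Adj

/-!
# The action of matrices on rows, as linear automorphisms of `D × D`
-/

open Module Matrix

set_option linter.unusedSectionVars false

namespace Vale.Agent.P011.H518.R8

open Vale.Agent.P011.Two (hh An Uh e₁ IsDiag)
open Vale.Agent.P011S

section act

variable {D : Type} [DivisionRing D]

/-- The action on rows. -/
def act (X : Matrix (Fin 2) (Fin 2) D) : (D × D) →ₗ[D] (D × D) where
  toFun x := (x.1 * X 0 0 + x.2 * X 1 0, x.1 * X 0 1 + x.2 * X 1 1)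
  map_add' x y := by
    refine Prod.ext ?_ ?_
    · change (x.1 + y.1) * X 0 0 + (x.2 + y.2) * X 1 0 = _
      change _ = (x.1 * X 0 0 + x.2 * X 1 0) + (y.1 * X 0 0 + y.2 * X 1 0)
      noncomm_ring
    · change (x.1 + y.1) * X 0 1 + (x.2 + y.2) * X 1 1 = _
      change _ = (x.1 * X 0 1 + x.2 * X 1 1) + (y.1 * X 0 1 + y.2 * X 1 1)
      noncomm_ring
  map_smul' c x := by
    refine Prod.ext ?_ ?_
    · change (c * x.1) * X 0 0 + (c * x.2) * X 1 0 = c * (x.1 * X 0 0 + x.2 * X 1 0)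
      noncomm_ring
    · change (c * x.1) * X 0 1 + (c * x.2) * X 1 1 = c * (x.1 * X 0 1 + x.2 * X 1 1)
      noncomm_ring

theorem act_apply (X : Matrix (Fin 2) (Fin 2) D) (x : D × D) :
    act X x = (x.1 * X 0 0 + x.2 * X 1 0, x.1 * X 0 1 + x.2 * X 1 1) := rfl

theorem act_mul (X Y : Matrix (Fin 2) (Fin 2) D) (x : D × D) :
    act Y (act X x) = act (X * Y) x := by
  simp only [act_apply, Matrix.mul_apply, Fin.sum_univ_two]
  refine Prod.ext ?_ ?_
  · change _ = x.1 * (X 0 0 * Y 0 0 + X 0 1 * Y 1 0) + x.2 * (X 1 0 * Y 0 0 + X 1 1 * Y 1 0)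
    change (x.1 * X 0 0 + x.2 * X 1 0) * Y 0 0 + (x.1 * X 0 1 + x.2 * X 1 1) * Y 1 0 = _
    noncomm_ring
  · change _ = x.1 * (X 0 0 * Y 0 1 + X 0 1 * Y 1 1) + x.2 * (X 1 0 * Y 0 1 + X 1 1 * Y 1 1)
    change (x.1 * X 0 0 + x.2 * X 1 0) * Y 0 1 + (x.1 * X 0 1 + x.2 * X 1 1) * Y 1 1 = _
    noncomm_ring

theorem act_one (x : D × D) : act (1 : Matrix (Fin 2) (Fin 2) D) x = x := by
  simp [act_apply]

/-- The homomorphism to the linear automorphisms. -/
def Th : (Matrix (Fin 2) (Fin 2) D)ˣ →* ((D × D) ≃ₗ[D] (D × D)) where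
  toFun X := LinearEquiv.ofLinearMap (act ((X⁻¹ : (Matrix (Fin 2) (Fin 2) D)ˣ) : Matrix _ _ D))
    (act (X : Matrix _ _ D))
    (by ext <;> simp only [LinearMap.comp_apply, act_mul, Units.mul_inv, act_one] <;> rfl)
    (by ext <;> simp only [LinearMap.comp_apply, act_mul, Units.inv_mul, act_one] <;> rfl)
  map_one' := by
    ext1 x
    change act ((1⁻¹ : (Matrix (Fin 2) (Fin 2) D)ˣ) : Matrix _ _ D) x = x
    rw [inv_one, Units.val_one, act_one]
  map_mul' X Y := by
    ext1 x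
    change act (((X * Y)⁻¹ : (Matrix (Fin 2) (Fin 2) D)ˣ) : Matrix _ _ D) x =
      act ((X⁻¹ : (Matrix (Fin 2) (Fin 2) D)ˣ) : Matrix _ _ D)
        (act ((Y⁻¹ : (Matrix (Fin 2) (Fin 2) D)ˣ) : Matrix _ _ D) x)
    rw [act_mul, _root_.mul_inv_rev, Units.val_mul]

theorem Th_apply (X : (Matrix (Fin 2) (Fin 2) D)ˣ) (x : D × D) :
    Th X x = act ((X⁻¹ : (Matrix (Fin 2) (Fin 2) D)ˣ) : Matrix _ _ D) x := rfl

theorem Th_inv_apply (X : (Matrix (Fin 2) (Fin 2) D)ˣ) (x : D × D) :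
    (Th X)⁻¹ x = act (X : Matrix _ _ D) x := rfl

/-- The matrix of a linear automorphism. -/
def m2 (u : (D × D) ≃ₗ[D] (D × D)) : Matrix (Fin 2) (Fin 2) D :=
  !![(u (1, 0)).1, (u (1, 0)).2; (u (0, 1)).1, (u (0, 1)).2]

theorem act_m2 (u : (D × D) ≃ₗ[D] (D × D)) (x : D × D) : act (m2 u) x = u x := by
  have h1 : x = x.1 • ((1 : D), (0 : D)) + x.2 • ((0 : D), (1 : D)) := by
    refine Prod.ext ?_ ?_ <;> simp
  conv_rhs => rw [h1, map_add, map_smul, map_smul]
  rfl

theorem act_injective {X Y : Matrix (Fin 2) (Fin 2) D} (h : ∀ x, act X x = act Y x) : X = Y := by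
  have h1 := h (1, 0)
  have h2 := h (0, 1)
  simp only [act_apply, one_mul, zero_mul, add_zero, zero_add, Prod.mk.injEq] at h1 h2
  ext i j
  fin_cases i <;> fin_cases j
  · exact h1.1
  · exact h1.2
  · exact h2.1
  · exact h2.2

theorem m2_act (X : (Matrix (Fin 2) (Fin 2) D)ˣ) :
    m2 (Th X) = ((X⁻¹ : (Matrix (Fin 2) (Fin 2) D)ˣ) : Matrix _ _ D) :=
  act_injective fun x => act_m2 (Th X) x

theorem Th_surjective : Function.Surjective (Th (D := D)) := by
  intro u
  have h1 : m2 u * m2 u⁻¹ = 1 := act_injective fun x => by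
    rw [← act_mul, act_m2, act_m2, act_one]
    exact u.symm_apply_apply x
  have h2 : m2 u⁻¹ * m2 u = 1 := act_injective fun x => by
    rw [← act_mul, act_m2, act_m2, act_one]
    exact u.apply_symm_apply x
  refine ⟨⟨m2 u⁻¹, m2 u, h2, h1⟩, ?_⟩
  ext1 x
  rw [Th_apply]
  exact act_m2 u x

theorem Th_injective : Function.Injective (Th (D := D)) := by
  intro X Y h
  have h1 := congrArg m2 h
  rw [m2_act, m2_act] at h1
  exact inv_injective (Units.ext h1)

end act

section form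

variable {D : Type} [DivisionRing D] [StarRing D]

theorem entry (g : D) (X : Matrix (Fin 2) (Fin 2) D) (i j : Fin 2) :
    (X * Matrix.diagonal ![1, g] * Xᴴ) i j =
      X i 0 * star (X j 0) + X i 1 * g * star (X j 1) := by
  rw [Matrix.mul_apply, Fin.sum_univ_two, Matrix.mul_diagonal, Matrix.mul_diagonal]
  simp

theorem hh_act (g : D) (X : Matrix (Fin 2) (Fin 2) D) (x y : D × D) :
    hh g (act X x) (act X y) =
      x.1 * (X * Matrix.diagonal ![1, g] * Xᴴ) 0 0 * star y.1 +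
      x.1 * (X * Matrix.diagonal ![1, g] * Xᴴ) 0 1 * star y.2 +
      x.2 * (X * Matrix.diagonal ![1, g] * Xᴴ) 1 0 * star y.1 +
      x.2 * (X * Matrix.diagonal ![1, g] * Xᴴ) 1 1 * star y.2 := by
  simp only [entry, hh, act_apply, star_add, star_mul]
  noncomm_ring

/-- Unitary matrices. -/
theorem act_unitary_iff (g : D) (X : Matrix (Fin 2) (Fin 2) D) :
    (∀ x y, hh g (act X x) (act X y) = hh g x y) ↔
      X * Matrix.diagonal ![1, g] * Xᴴ = Matrix.diagonal ![1, g] := by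
  constructor
  · intro h
    have h00 := h (1, 0) (1, 0)
    have h01 := h (1, 0) (0, 1)
    have h10 := h (0, 1) (1, 0)
    have h11 := h (0, 1) (0, 1)
    rw [hh_act] at h00 h01 h10 h11
    simp only [hh, star_one, star_zero, mul_one, one_mul, mul_zero, zero_mul, add_zero,
      zero_add] at h00 h01 h10 h11
    ext i j
    fin_cases i <;> fin_cases j
    · simpa using h00
    · simpa using h01
    · simpa using h10
    · simpa using h11
  · intro h x y
    rw [hh_act, h]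
    simp [hh]

theorem Th_mem_Uh (g : D) (X : (Matrix (Fin 2) (Fin 2) D)ˣ) :
    Th X ∈ Uh g ↔ (X : Matrix (Fin 2) (Fin 2) D) * Matrix.diagonal ![1, g] *
      (X : Matrix (Fin 2) (Fin 2) D)ᴴ = Matrix.diagonal ![1, g] := by
  rw [← act_unitary_iff, ← Subgroup.inv_mem_iff]
  exact Iff.rfl

end form

section det

variable {K D Ω : Type} [Field K] [DivisionRing D] [Algebra K D] [Field Ω] [Algebra K Ω] {n : ℕ}

/-- The equivalence of the index sets. -/
def eS (n : ℕ) : Fin n ⊕ Fin n ≃ Fin 2 × Fin n where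
  toFun := Sum.elim (fun i => (0, i)) (fun i => (1, i))
  invFun p := if p.1 = 0 then Sum.inl p.2 else Sum.inr p.2
  left_inv := by
    rintro (i | i) <;> simp
  right_inv := by
    rintro ⟨i, j⟩
    fin_cases i <;> simp

theorem redNorm_two (f : D →ₐ[K] Matrix (Fin n) (Fin n) Ω) (X : Matrix (Fin 2) (Fin 2) D) :
    redNorm f (Fin 2) X =
      (Matrix.fromBlocks (f (X 0 0)) (f (X 0 1)) (f (X 1 0)) (f (X 1 1))).det := by
  have h1 : redNorm f (Fin 2) X = (Matrix.of fun p q : Fin 2 × Fin n =>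
      f (X p.1 q.1) p.2 q.2).det := rfl
  rw [h1, ← Matrix.det_submatrix_equiv_self (eS n)]
  congr 1
  ext i j
  rcases i with i | i <;> rcases j with j | j <;> rfl

end det

end Vale.Agent.P011.H518.R8
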